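import Vale.Agent.P040.Defs

/-! Cuts from distances to the boundary. -/

namespace Vale.Agent.P040

open Finset

/-- pairs -/
def PR (m : ℕ) : Finset (Fin m × Fin m) := univ.filter fun e => e.1 < e.2

def mono {m : ℕ} (ε : Fin m → Bool) : ℕ := ((PR m).filter fun e => ε e.1 = ε e.2).card

theorem mono_eq {m : ℕ} (ε : Fin m → Bool) : ∃ s r : ℕ, s = (univ.filter fun i => ε i = true).card ∧
    s + r = m ∧ 2 * mono ε + m = s ^ 2 + r ^ 2 := by
  refine ⟨_, (univ.filter fun i => ¬ ε i = true).card, rfl, ?_, ?_⟩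
  · rw [card_filter_add_card_filter_not]; simp
  set E : Finset (Fin m × Fin m) := univ.filter fun e => ε e.1 = ε e.2 with hE
  have h1 : E = (univ.filter fun i => ε i = true) ×ˢ (univ.filter fun i => ε i = true) ∪
      (univ.filter fun i => ¬ ε i = true) ×ˢ (univ.filter fun i => ¬ ε i = true) := by
    ext e
    simp only [hE, mem_filter, mem_univ, true_and, mem_union, mem_product]
    cases ε e.1 <;> cases ε e.2 <;> simp
  have h2 : E.card = (univ.filter fun i => ε i = true).card ^ 2 +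
      (univ.filter fun i => ¬ ε i = true).card ^ 2 := by
    rw [h1, card_union_of_disjoint, card_product, card_product, sq, sq]
    rw [disjoint_left]
    intro e h h'
    simp only [mem_product, mem_filter] at h h'
    exact h'.1.2 h.1.2
  have h3 : (E.filter fun e => e.1 < e.2).card = mono ε := by
    unfold mono PR
    rw [hE, filter_filter, filter_filter]
    exact congrArg card (filter_congr fun e _ => and_comm)
  have h4 : ((E.filter fun e => ¬ e.1 < e.2).filter fun e => e.2 < e.1).card = mono ε := by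
    rw [← h3]
    refine card_bij (fun e _ => e.swap) ?_ ?_ ?_
    · intro e he
      simp only [hE, mem_filter, mem_univ, true_and, Prod.fst_swap, Prod.snd_swap] at he ⊢
      exact ⟨he.1.1.symm, he.2⟩
    · intro e _ f _ h; exact Prod.swap_injective h
    · intro e he
      refine ⟨e.swap, ?_, rfl⟩
      simp only [hE, mem_filter, mem_univ, true_and, Prod.fst_swap, Prod.snd_swap] at he ⊢
      exact ⟨⟨he.1.symm, not_lt.2 he.2.le⟩, he.2⟩
  have h5 : ((E.filter fun e => ¬ e.1 < e.2).filter fun e => ¬ e.2 < e.1).card = m := by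
    conv_rhs => rw [← Fintype.card_fin m, ← card_univ]
    refine (card_bij (fun i _ => (i, i)) ?_ ?_ ?_).symm
    · intro i _; simp [hE]
    · intro i _ j _ h; exact congrArg Prod.fst h
    · intro e he
      simp only [hE, mem_filter, mem_univ, true_and, not_lt] at he
      exact ⟨e.1, mem_univ _, Prod.ext rfl (le_antisymm he.2 he.1.2)⟩
  have h6 := card_filter_add_card_filter_not (s := E) fun e => e.1 < e.2
  have h7 := card_filter_add_card_filter_not (s := E.filter fun e => ¬ e.1 < e.2) fun e => e.2 < e.1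
  omega

theorem dd_eq (m : ℕ) : 2 * dd m + m = (m / 2) ^ 2 + (m - m / 2) ^ 2 := by
  unfold dd
  rcases Nat.even_or_odd' m with ⟨k, rfl | rfl⟩
  · rcases k with _ | k
    · rfl
    · rw [show 2 * (k + 1) / 2 = k + 1 by omega, show (2 * (k + 1) - 1) / 2 = k by omega,
        show 2 * (k + 1) - (k + 1) = k + 1 by omega]; ring
  · rw [show (2 * k + 1) / 2 = k by omega, show (2 * k + 1 - 1) / 2 = k by omega,
      show 2 * k + 1 - k = k + 1 by omega]; ring

theorem sq_aux {a b s r : ℕ} (h : a + b = s + r) (h1 : b = a ∨ b = a + 1) :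
    a ^ 2 + b ^ 2 ≤ s ^ 2 + r ^ 2 := by
  have h7 : (r : ℤ) = a + b - s := by omega
  zify
  rw [h7]
  have h8 : 0 ≤ ((s : ℤ) - a) * (s - b) := by
    rcases le_or_gt (s : ℤ) a with h | h
    · exact mul_nonneg_of_nonpos_of_nonpos (by omega) (by omega)
    · exact mul_nonneg (by omega) (by omega)
  nlinarith

theorem dd_le_mono {m : ℕ} (ε : Fin m → Bool) : dd m ≤ mono ε := by
  obtain ⟨s, r, -, h1, h2⟩ := mono_eq ε
  have h3 := dd_eq m
  obtain ⟨a, ha⟩ : ∃ a, a = m / 2 := ⟨_, rfl⟩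
  obtain ⟨b, hb⟩ : ∃ b, b = m - m / 2 := ⟨_, rfl⟩
  rw [← hb, ← ha] at h3
  have h4 : a + b = s + r := by omega
  have h5 : a ^ 2 + b ^ 2 ≤ s ^ 2 + r ^ 2 := by
    have h6 : b = a ∨ b = a + 1 := by omega
    rcases h6 with h6 | h6
    · exact sq_aux (by omega) (by omega)
    · exact sq_aux (by omega) (by omega)
  omega

theorem mono_le_dd {m : ℕ} (ε : Fin m → Bool)
    (h : (univ.filter fun i => ε i = true).card = m / 2) : mono ε ≤ dd m := by
  obtain ⟨s, r, h0, h1, h2⟩ := mono_eq ε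
  have h3 := dd_eq m
  rw [h] at h0
  rw [h0, show r = m - m / 2 by omega] at h2
  omega

theorem changes_le_two (N : ℕ) (β : ℕ → Prop) [DecidablePred β] (per : β N ↔ β 0)
    (h1 : ∀ i₁ i₂ i₃ i₄, i₁ < i₂ → i₂ < i₃ → i₃ < i₄ → i₄ < i₁ + N →
      ¬ ((β i₁ ↔ ¬ β i₂) ∧ (β i₁ ↔ β i₃) ∧ (β i₂ ↔ β i₄))) :
    ((range N).filter fun i => ¬ (β i ↔ β (i + 1))).card ≤ 2 := by
  by_contra hcon
  have key : ∀ i j l, i < j → j < l → l < N → ¬ (β i ↔ β (i + 1)) → ¬ (β j ↔ β (j + 1)) →
      ¬ (β l ↔ β (l + 1)) → False := by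
    intro i j l hij hjl hl hi hj hl'
    obtain ⟨j', hj1, hj2, hj3⟩ : ∃ j', i + 1 < j' ∧ j' ≤ j + 1 ∧ (β i ↔ β j') := by
      by_cases h : β i ↔ β j
      · refine ⟨j, ?_, by omega, h⟩
        rcases Nat.lt_or_ge (i + 1) j with h' | h'
        · exact h'
        · exact absurd (show j = i + 1 by omega) fun he => hi (he ▸ h)
      · exact ⟨j + 1, by omega, le_rfl, by tauto⟩
    obtain ⟨l', hl1, hl2, hl3⟩ : ∃ l', l ≤ l' ∧ l' ≤ l + 1 ∧ (β (i + 1) ↔ β l') := by
      by_cases h : β (i + 1) ↔ β l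
      · exact ⟨l, le_rfl, by omega, h⟩
      · exact ⟨l + 1, by omega, le_rfl, by tauto⟩
    refine h1 i (i + 1) j' l' (by omega) hj1 ?_ ?_ ⟨by tauto, hj3, hl3⟩
    · rcases Nat.lt_or_ge j' l' with h | h
      · exact h
      · exact absurd (show j' = l' by omega) fun he => hi (by rw [he] at hj3; tauto)
    · rcases Nat.lt_or_ge l' (i + N) with h | h
      · exact h
      · have e1 : i = 0 := by omega
        have e2 : l' = N := by omega
        rw [e2, per] at hl3
        rw [e1] at hi hl3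
        exact absurd hl3.symm hi
  obtain ⟨a, b, c, ha, hb, hc, hab, hac, hbc⟩ := two_lt_card_iff.1 (not_le.1 hcon)
  simp only [mem_filter, mem_range] at ha hb hc
  rcases lt_or_gt_of_ne hab with h1 | h1 <;> rcases lt_or_gt_of_ne hac with h2 | h2 <;>
    rcases lt_or_gt_of_ne hbc with h3 | h3
  · exact key a b c h1 h3 hc.1 ha.2 hb.2 hc.2
  · exact key a c b h2 h3 hb.1 ha.2 hc.2 hb.2
  · omega
  · exact key c a b h2 h1 hb.1 hc.2 ha.2 hb.2
  · exact key b a c h1 h2 hc.1 hb.2 ha.2 hc.2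
  · omega
  · exact key b c a h3 h2 ha.1 hb.2 hc.2 ha.2
  · exact key c b a h3 h1 ha.1 hc.2 hb.2 ha.2

theorem tv_le (N : ℕ) (u : ℕ → ℤ) (lo hi : ℤ) (hb : ∀ i, lo ≤ u i ∧ u i ≤ hi) (per : u N = u 0)
    (h1 : ∀ i₁ i₂ i₃ i₄, i₁ < i₂ → i₂ < i₃ → i₃ < i₄ → i₄ < i₁ + N →
      (min (u i₂) (u i₄) ≤ max (u i₁) (u i₃)) ∧ min (u i₁) (u i₃) ≤ max (u i₂) (u i₄)) :
    ∑ i ∈ range N, (u (i + 1) - u i).natAbs ≤ 2 * (hi - lo).toNat := by
  have h2 : ∀ i, (u (i + 1) - u i).natAbs ≤
      ((Ioc lo hi).filter fun τ => ¬ (τ ≤ u i ↔ τ ≤ u (i + 1))).card := by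
    intro i
    have h3 : Ioc (min (u i) (u (i + 1))) (max (u i) (u (i + 1))) ⊆
        (Ioc lo hi).filter fun τ => ¬ (τ ≤ u i ↔ τ ≤ u (i + 1)) := by
      intro τ hτ
      have := hb i
      have := hb (i + 1)
      simp only [mem_Ioc, mem_filter] at hτ ⊢
      omega
    refine le_trans ?_ (card_le_card h3)
    rw [Int.card_Ioc]; omega
  refine (sum_le_sum fun i _ => h2 i).trans ?_
  simp only [card_filter]
  rw [sum_comm, ← Int.card_Ioc, mul_comm, ← smul_eq_mul, ← sum_const]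
  refine sum_le_sum fun τ _ => ?_
  rw [← card_filter]
  refine changes_le_two N (fun i => τ ≤ u i) (by rw [per]) fun i₁ i₂ i₃ i₄ a b c d => ?_
  have := h1 i₁ i₂ i₃ i₄ a b c d
  omega

theorem exists_cuts {X : Type} (d : X → X → ℕ) (p : ℕ → X) (K k : ℕ) (hrefl : ∀ x, d x x = 0)
    (tri : ∀ x y z, d x z ≤ d x y + d y z) (per : ∀ i, p (i + 2 * K) = p i)
    (hL : ∀ i, k ≤ d (p i) (p (i + K)))
    (hc : ∀ i, ∑ l ∈ Ico i (i + K), d (p l) (p (l + 1)) ≤ k)
    (hc' : ∀ i, ∑ l ∈ Ico i (i + K), d (p (l + 1)) (p l) ≤ k)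
    (hU : ∀ i₁ i₂ i₃ i₄, i₁ < i₂ → i₂ < i₃ → i₃ < i₄ → i₄ < i₁ + 2 * K → ∀ x y,
      ∃ o e, (o = i₁ ∨ o = i₃) ∧ (e = i₂ ∨ e = i₄) ∧
        d (p o) x + d (p e) y ≤ d (p o) y + d (p e) x) :
    ∃ (Γ : Finset (Σ _ : ℕ, ℕ)) (s : (Σ _ : ℕ, ℕ) → X → Bool), 4 * k ≤ Γ.card ∧
      (∀ x y, (Γ.filter fun γ => s γ x ≠ s γ y).card ≤ 2 * (d x y + d y x)) ∧
      ∀ j < K, ∀ γ ∈ Γ, s γ (p j) ≠ s γ (p (j + K)) := by
  have up : ∀ i j, i ≤ j → d (p i) (p j) ≤ ∑ l ∈ Ico i j, d (p l) (p (l + 1)) := by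
    intro i j hij
    induction j, hij using Nat.le_induction with
    | base => simp [hrefl]
    | succ j hij ih => rw [sum_Ico_succ_top hij]; exact (tri _ (p j) _).trans (by omega)
  have dn : ∀ i j, i ≤ j → d (p j) (p i) ≤ ∑ l ∈ Ico i j, d (p (l + 1)) (p l) := by
    intro i j hij
    induction j, hij using Nat.le_induction with
    | base => simp [hrefl]
    | succ j hij ih => rw [sum_Ico_succ_top hij]; exact (tri _ (p j) _).trans (by omega)
  have hL' : ∀ i, k ≤ d (p (i + K)) (p i) := fun i => by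
    have := hL (i + K)
    rwa [add_assoc, ← two_mul, per] at this
  have lA : ∀ i j, i < j → j ≤ i + K →
      d (p i) (p (i + 1)) + d (p (i + 1)) (p j) ≤ d (p i) (p j) := by
    intro i j h1 h2
    have a1 := hL i
    have a2 := tri (p i) (p j) (p (i + K))
    have a3 := up j (i + K) h2
    have a4 := hc i
    have a5 := up (i + 1) j h1
    rw [← sum_Ico_consecutive _ h1.le h2, sum_eq_sum_Ico_succ_bot h1] at a4
    omega
  have lB : ∀ i j, j ≤ i → i < j + K →
      d (p (i + 1)) (p i) + d (p i) (p j) ≤ d (p (i + 1)) (p j) := by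
    intro i j h1 h2
    have a1 := hL' j
    have a2 := tri (p (j + K)) (p (i + 1)) (p j)
    have a3 := dn (i + 1) (j + K) h2
    have a4 := hc' j
    have a5 := dn j i h1
    rw [← sum_Ico_consecutive _ (show j ≤ i + 1 by omega) h2, sum_Ico_succ_top h1] at a4
    omega
  refine ⟨(range (2 * K)).sigma fun i => range (d (p i) (p (i + 1)) + d (p (i + 1)) (p i)),
    fun γ x => decide (γ.2 + d (p γ.1) x < d (p (γ.1 + 1)) x + d (p γ.1) (p (γ.1 + 1))),
    ?_, fun x y => ?_, fun j hj γ hγ => ?_⟩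
  · rw [card_sigma]
    simp only [card_range]
    rw [sum_add_distrib, range_eq_Ico, ← sum_Ico_consecutive _ (Nat.zero_le K) (by omega),
      ← sum_Ico_consecutive (fun i => d (p (i + 1)) (p i)) (Nat.zero_le K) (by omega)]
    have a1 := up 0 K (Nat.zero_le K)
    have a2 := up K (2 * K) (by omega)
    have a3 := dn 0 K (Nat.zero_le K)
    have a4 := dn K (2 * K) (by omega)
    have b1 := hL 0
    have b2 := hL K
    have b3 := hL' 0
    have b4 := hL' K
    rw [zero_add] at b1 b3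
    rw [← two_mul] at b2 b4
    omega
  · have h1 := tv_le (2 * K) (fun i => (d (p i) y : ℤ) - d (p i) x) (-(d y x : ℤ)) (d x y)
      (fun i => by have := tri (p i) x y; have := tri (p i) y x; omega)
      (by have := per 0; rw [zero_add] at this; simp only [this])
      (fun i₁ i₂ i₃ i₄ a b c e => by
        obtain ⟨o, f, ho, hf, h⟩ := hU i₁ i₂ i₃ i₄ a b c e x y
        obtain ⟨o', f', ho', hf', h'⟩ := hU i₁ i₂ i₃ i₄ a b c e y x
        constructor
        · rcases ho with rfl | rfl <;> rcases hf with rfl | rfl <;> omega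
        · rcases ho' with rfl | rfl <;> rcases hf' with rfl | rfl <;> omega)
    rw [filter_sigma, card_sigma]
    refine le_trans (sum_le_sum fun i _ => ?_) (h1.trans (by omega))
    obtain ⟨A, hA⟩ : ∃ A : ℤ, A = (d (p (i + 1)) x : ℤ) + d (p i) (p (i + 1)) - d (p i) x :=
      ⟨_, rfl⟩
    obtain ⟨B, hB⟩ : ∃ B : ℤ, B = (d (p (i + 1)) y : ℤ) + d (p i) (p (i + 1)) - d (p i) y :=
      ⟨_, rfl⟩
    refine le_trans (card_le_card_of_injOn (t := Ico (min A B) (max A B)) (fun l : ℕ => (l : ℤ))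
      (fun l hl => ?_) fun a _ b _ h => Nat.cast_injective (R := ℤ) h) ?_
    · simp only [coe_filter, mem_range, Set.mem_ofPred_eq, ne_eq, decide_eq_decide] at hl
      simp only [coe_Ico, Set.mem_Ico]
      omega
    · rw [Int.card_Ico]; omega
  · obtain ⟨i, l⟩ := γ
    simp only [mem_sigma, mem_range] at hγ
    simp only [ne_eq, decide_eq_decide]
    rcases Nat.lt_or_ge i j with h | h
    · have a1 := lA i j h (by omega)
      have a2 := lB (i + 2 * K) (j + K) (by omega) (by omega)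
      rw [show i + 2 * K + 1 = i + 1 + 2 * K by omega, per, per] at a2
      omega
    · rcases Nat.lt_or_ge i (j + K) with h' | h'
      · have a1 := lB i j h h'
        have a2 := lA i (j + K) h' (by omega)
        omega
      · have a1 := lB i (j + K) h' (by omega)
        have a2 := lA i (j + 2 * K) (by omega) (by omega)
        rw [per] at a2
        omega

theorem count_cuts {G : Type} {n k : ℕ} (Γ : Finset G) (hΓ : 4 * k ≤ Γ.card) (σ : G → Fin n → Bool)
    (w : Fin n × Fin n → ℕ)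
    (h : ∀ f ∈ PR n, (Γ.filter fun γ => σ γ f.1 = σ γ f.2).card ≤ 4 * w f) :
    k * dd n ≤ ∑ f ∈ PR n, w f := by
  have h1 : Γ.card * dd n ≤ ∑ γ ∈ Γ, mono (σ γ) := by
    rw [← smul_eq_mul, ← sum_const]
    exact sum_le_sum fun γ _ => dd_le_mono _
  have h2 : ∑ γ ∈ Γ, mono (σ γ) = ∑ f ∈ PR n, (Γ.filter fun γ => σ γ f.1 = σ γ f.2).card := by
    simp only [mono, card_filter]
    exact sum_comm
  have h3 := sum_le_sum h
  rw [← mul_sum] at h3
  have h4 := Nat.mul_le_mul_right (dd n) hΓ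
  rw [mul_assoc] at h4
  omega

end Vale.Agent.P040
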