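import Vale.Agent.P040.Disc
import Vale.Agent.P040.Cut

/-! Chains of arcs in the disc and the number of walls they meet. -/

namespace Vale.Agent.P040

open Set

variable {ι : Type} (P : Finset ι) (W : ι → Set ℂ)

open Classical in
noncomputable def hits (g : ℝ → ℂ) (a b : ℝ) : Finset ι :=
  P.filter fun e => ∃ t ∈ Ico a b, g t ∈ W e

inductive Ch : ℂ → ℂ → ℕ → Set ℂ → Prop
  | arc (g : ℝ → ℂ) (a b : ℝ) (hab : a ≤ b) (hg : ContinuousOn g (Icc a b))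
      (hn : ∀ t ∈ Icc a b, ‖g t‖ ≤ 1)
      (hu : ∀ e ∈ P, ∀ t ∈ Ico a b, ∀ t' ∈ Ico a b, g t ∈ W e → g t' ∈ W e → t = t') :
      Ch (g a) (g b) (hits P W g a b).card (g '' Icc a b)
  | trans {x y z : ℂ} {c c' : ℕ} {S S' : Set ℂ} : Ch x y c S → Ch y z c' S' →
      Ch x z (c + c') (S ∪ S')

variable {P W}

theorem mem_hits {g : ℝ → ℂ} {a b : ℝ} {e : ι} :
    e ∈ hits P W g a b ↔ e ∈ P ∧ ∃ t ∈ Ico a b, g t ∈ W e := by
  classical
  unfold hits; exact Finset.mem_filter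

theorem joinedIn_arc {g : ℝ → ℂ} {a b : ℝ} (hab : a ≤ b) (hg : ContinuousOn g (Icc a b)) :
    JoinedIn (g '' Icc a b) (g a) (g b) :=
  (((convex_Icc a b).isPathConnected (nonempty_Icc.2 hab)).image' hg).joinedIn _
    (mem_image_of_mem g (left_mem_Icc.2 hab)) _ (mem_image_of_mem g (right_mem_Icc.2 hab))

theorem Ch.norm {x y : ℂ} {c : ℕ} {S : Set ℂ} (h : Ch P W x y c S) : ∀ z ∈ S, ‖z‖ ≤ 1 := by
  induction h with
  | arc g a b hab hg hn hu => rintro z ⟨t, ht, rfl⟩; exact hn t ht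
  | trans _ _ ih ih' => exact fun z hz => hz.elim (ih z) (ih' z)

theorem Ch.joined {x y : ℂ} {c : ℕ} {S : Set ℂ} (h : Ch P W x y c S) : JoinedIn S x y := by
  induction h with
  | arc g a b hab hg hn hu => exact joinedIn_arc hab hg
  | trans _ _ ih ih' => exact (ih.mono subset_union_left).trans (ih'.mono subset_union_right)

theorem Ch.split {x y : ℂ} {c : ℕ} {S : Set ℂ} (h : Ch P W x y c S) : ∀ z ∈ S,
    ∃ c₁ c₂ S₁ S₂, Ch P W x z c₁ S₁ ∧ Ch P W z y c₂ S₂ ∧ c₁ + c₂ ≤ c := by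
  classical
  induction h with
  | arc g a b hab hg hn hu =>
    rintro z ⟨t, ht, rfl⟩
    have s1 : Icc a t ⊆ Icc a b := Icc_subset_Icc_right ht.2
    have s2 : Icc t b ⊆ Icc a b := Icc_subset_Icc_left ht.1
    have s3 : Ico a t ⊆ Ico a b := Ico_subset_Ico_right ht.2
    have s4 : Ico t b ⊆ Ico a b := Ico_subset_Ico_left ht.1
    refine ⟨_, _, _, _, Ch.arc g a t ht.1 (hg.mono s1) (fun s hs => hn s (s1 hs))
      (fun e he s hs s' hs' => hu e he s (s3 hs) s' (s3 hs')),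
      Ch.arc g t b ht.2 (hg.mono s2) (fun s hs => hn s (s2 hs))
      (fun e he s hs s' hs' => hu e he s (s4 hs) s' (s4 hs')), ?_⟩
    rw [← Finset.card_union_of_disjoint]
    · refine Finset.card_le_card fun e he => ?_
      rcases Finset.mem_union.1 he with he | he <;> obtain ⟨h1, s, hs, h2⟩ := mem_hits.1 he
      · exact mem_hits.2 ⟨h1, s, s3 hs, h2⟩
      · exact mem_hits.2 ⟨h1, s, s4 hs, h2⟩
    · rw [Finset.disjoint_left]
      intro e he he'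
      obtain ⟨h1, s, hs, h2⟩ := mem_hits.1 he
      obtain ⟨-, s', hs', h2'⟩ := mem_hits.1 he'
      have := hu e h1 s (s3 hs) s' (s4 hs') h2 h2'
      linarith [hs.2, hs'.1]
  | trans h1 h2 ih ih' =>
    rintro z (hz | hz)
    · obtain ⟨c₁, c₂, S₁, S₂, k1, k2, k3⟩ := ih z hz
      exact ⟨_, _, _, _, k1, k2.trans h2, by omega⟩
    · obtain ⟨c₁, c₂, S₁, S₂, k1, k2, k3⟩ := ih' z hz
      exact ⟨_, _, _, _, h1.trans k1, k2, by omega⟩

theorem Ch.hit {x y : ℂ} {c : ℕ} {S : Set ℂ} (h : Ch P W x y c S) :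
    ∃ T : Finset ι, T.card ≤ c ∧ ∀ e ∈ P, ∀ z ∈ S, z ∈ W e → e ∈ T ∨ z = y := by
  classical
  induction h with
  | arc g a b hab hg hn hu =>
    refine ⟨_, le_rfl, ?_⟩
    rintro e he z ⟨t, ht, rfl⟩ hz
    rcases ht.2.lt_or_eq with h | h
    · exact Or.inl (mem_hits.2 ⟨he, t, ⟨ht.1, h⟩, hz⟩)
    · exact Or.inr (by rw [h])
  | trans h1 h2 ih ih' =>
    obtain ⟨T, k1, k2⟩ := ih
    obtain ⟨T', k1', k2'⟩ := ih'
    refine ⟨T ∪ T', (Finset.card_union_le _ _).trans (by omega), fun e he z hz hw => ?_⟩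
    have k3 : ∀ z ∈ _, z ∈ W e → e ∈ T ∪ T' ∨ z = _ := fun z hz hw =>
      (k2' e he z hz hw).imp_left (Finset.mem_union_right _)
    rcases hz with hz | hz
    · rcases k2 e he z hz hw with h | h
      · exact Or.inl (Finset.mem_union_left _ h)
      · exact k3 z (h ▸ h2.joined.source_mem) hw
    · exact k3 z hz hw

variable (P W) in
noncomputable def ds (x y : ℂ) : ℕ := sInf {c | ∃ S, Ch P W x y c S}

theorem Ch.ds_le {x y : ℂ} {c : ℕ} {S : Set ℂ} (h : Ch P W x y c S) : ds P W x y ≤ c :=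
  Nat.sInf_le ⟨S, h⟩

variable (P W) in
/-- points joined with the base point in both directions -/
def Con (o x : ℂ) : Prop := (∃ c S, Ch P W x o c S) ∧ ∃ c S, Ch P W o x c S

theorem Con.ch {o x y : ℂ} (hx : Con P W o x) (hy : Con P W o y) :
    ∃ S, Ch P W x y (ds P W x y) S := by
  obtain ⟨c, S, h⟩ := hx.1
  obtain ⟨c', S', h'⟩ := hy.2
  exact Nat.sInf_mem (s := {c | ∃ S, Ch P W x y c S}) ⟨_, _, h.trans h'⟩

theorem Con.of_ch {o x y : ℂ} (hx : Con P W o x) {c c' : ℕ} {S S' : Set ℂ} (h : Ch P W x y c S)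
    (h' : Ch P W y x c' S') : Con P W o y := by
  obtain ⟨_, _, k⟩ := hx.1
  obtain ⟨_, _, k'⟩ := hx.2
  exact ⟨⟨_, _, h'.trans k⟩, _, _, k'.trans h⟩

theorem ch_refl {x : ℂ} (hx : ‖x‖ ≤ 1) : ∃ S, Ch P W x x 0 S := by
  have := Ch.arc (P := P) (W := W) (fun _ => x) 0 0 le_rfl continuousOn_const (fun _ _ => hx)
    fun e _ t ht => absurd ht.2 (not_lt.2 ht.1)
  have h0 : hits P W (fun _ => x) 0 0 = ∅ := by
    ext e; simp [mem_hits]
  rw [h0, Finset.card_empty] at this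
  exact ⟨_, this⟩

theorem Con.ds_self {o x : ℂ} (hx : Con P W o x) : ds P W x x = 0 := by
  obtain ⟨c, S, h⟩ := hx.1
  obtain ⟨S', h'⟩ := ch_refl (P := P) (W := W) (h.norm x h.joined.source_mem)
  exact Nat.le_zero.1 h'.ds_le

theorem Con.tri {o x y z : ℂ} (hx : Con P W o x) (hy : Con P W o y) (hz : Con P W o z) :
    ds P W x z ≤ ds P W x y + ds P W y z := by
  obtain ⟨_, h⟩ := hx.ch hy
  obtain ⟨_, h'⟩ := hy.ch hz
  exact (h.trans h').ds_le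

theorem exch {p q x y z : ℂ} {c c' : ℕ} {S S' : Set ℂ} (h : Ch P W p y c S) (h' : Ch P W q x c' S')
    (hz : z ∈ S) (hz' : z ∈ S') : ds P W p x + ds P W q y ≤ c + c' := by
  obtain ⟨c₁, c₂, _, _, k1, k2, k3⟩ := h.split z hz
  obtain ⟨c₃, c₄, _, _, k4, k5, k6⟩ := h'.split z hz'
  have := (k1.trans k5).ds_le
  have := (k4.trans k2).ds_le
  omega

theorem uni {o x y : ℂ} {θ₁ θ₂ θ₃ θ₄ : ℝ} (h12 : θ₁ < θ₂) (h23 : θ₂ < θ₃) (h34 : θ₃ < θ₄)
    (h41 : θ₄ < θ₁ + 2 * Real.pi) (c1 : Con P W o (ec θ₁)) (c2 : Con P W o (ec θ₂))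
    (c3 : Con P W o (ec θ₃)) (c4 : Con P W o (ec θ₄)) (hx : Con P W o x) (hy : Con P W o y) :
    (ds P W (ec θ₁) x + ds P W (ec θ₂) y ≤ ds P W (ec θ₁) y + ds P W (ec θ₂) x ∨
      ds P W (ec θ₁) x + ds P W (ec θ₄) y ≤ ds P W (ec θ₁) y + ds P W (ec θ₄) x) ∨
    (ds P W (ec θ₃) x + ds P W (ec θ₂) y ≤ ds P W (ec θ₃) y + ds P W (ec θ₂) x ∨
      ds P W (ec θ₃) x + ds P W (ec θ₄) y ≤ ds P W (ec θ₃) y + ds P W (ec θ₄) x) := by
  obtain ⟨S1, k1⟩ := c1.ch hy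
  obtain ⟨S2, k2⟩ := c2.ch hx
  obtain ⟨S3, k3⟩ := c3.ch hy
  obtain ⟨S4, k4⟩ := c4.ch hx
  obtain ⟨z, hz, hz'⟩ := disc_cross h12 h23 h34 h41 (S := S1 ∪ S3) (T := S2 ∪ S4)
    (fun z hz => hz.elim (k1.norm z) (k3.norm z)) (fun z hz => hz.elim (k2.norm z) (k4.norm z))
    ((k1.joined.mono subset_union_left).trans (k3.joined.mono subset_union_right).symm)
    ((k2.joined.mono subset_union_left).trans (k4.joined.mono subset_union_right).symm)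
  rcases hz with hz | hz <;> rcases hz' with hz' | hz'
  · exact Or.inl (Or.inl (exch k1 k2 hz hz'))
  · exact Or.inl (Or.inr (exch k1 k4 hz hz'))
  · exact Or.inr (Or.inl (exch k3 k2 hz hz'))
  · exact Or.inr (Or.inr (exch k3 k4 hz hz'))

theorem ec_reduce (θ φ : ℝ) : ∃ ψ, θ ≤ ψ ∧ ψ < θ + 2 * Real.pi ∧ ec ψ = ec φ := by
  have hp : 0 < 2 * Real.pi := by positivity
  refine ⟨toIcoMod hp θ φ, (toIcoMod_mem_Ico hp θ φ).1, (toIcoMod_mem_Ico hp θ φ).2, ?_⟩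
  have hper : Function.Periodic ec (2 * Real.pi) := ec_two_pi
  rw [toIcoMod, hper.sub_zsmul_eq]

/-- a chain between antipodal boundary points meets many walls -/
theorem lower {m : ℕ} {W : Fin m × Fin m → Set ℂ} (α : Fin m → ℂ) (κ : Fin m → Bool)
    (hsym : ∀ e φ, ec (φ + Real.pi) ∈ W e → ec φ ∈ W e)
    (hne : ∀ e ∈ PR m, κ e.1 ≠ κ e.2 → JoinedIn (W e ∩ {z | ‖z‖ ≤ 1}) (α e.1) (α e.2))
    (heq : ∀ e ∈ PR m, κ e.1 = κ e.2 → ∃ φ, JoinedIn (W e ∩ {z | ‖z‖ ≤ 1}) (α e.1) (ec φ) ∧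
      JoinedIn (W e ∩ {z | ‖z‖ ≤ 1}) (α e.2) (ec (φ + Real.pi)))
    {θ : ℝ} {c : ℕ} {S : Set ℂ} (h : Ch (PR m) W (ec θ) (ec (θ + Real.pi)) c S) : dd m ≤ c := by
  classical
  obtain ⟨T, hT, hit⟩ := h.hit
  have hpi := Real.pi_pos
  have hne' : ec θ ≠ ec (θ + Real.pi) := by
    rw [ec_pi]; intro h0
    have : ec θ = 0 := by linear_combination h0 / 2
    exact Complex.exp_ne_zero _ this
  have hav : ∀ e ∈ PR m, e ∉ T → W e ∩ {z | ‖z‖ ≤ 1} ⊆ Sᶜ ∩ {z | ‖z‖ ≤ 1} := by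
    intro e he heT z hz
    refine ⟨fun hzS => ?_, hz.2⟩
    have h1 := (hit e he z hzS hz.1).resolve_left heT
    exact hne' ((hit e he _ h.joined.source_mem (hsym e θ (h1 ▸ hz.1))).resolve_left heT)
  let up : ℂ → Prop := fun z => ∃ φ, θ < φ ∧ φ < θ + Real.pi ∧
    JoinedIn (Sᶜ ∩ {z | ‖z‖ ≤ 1}) z (ec φ)
  have hlow : ∀ z ψ, θ + Real.pi < ψ → ψ < θ + 2 * Real.pi →
      JoinedIn (Sᶜ ∩ {z | ‖z‖ ≤ 1}) z (ec ψ) → ¬ up z := by
    rintro z ψ h1 h2 h3 ⟨φ, k1, k2, k3⟩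
    obtain ⟨w, hw, hw'⟩ := disc_cross k1 k2 h1 h2 h.norm (fun z hz => hz.2) h.joined
      (k3.symm.trans h3)
    exact hw'.1 hw
  refine (dd_le_mono fun i => xor (decide (up (α i))) (κ i)).trans (le_trans ?_ hT)
  refine Finset.card_le_card fun e he => ?_
  obtain ⟨he, hm⟩ := Finset.mem_filter.1 he
  by_contra heT
  dsimp only at hm
  by_cases hk : κ e.1 = κ e.2
  · obtain ⟨φ, j1, j2⟩ := heq e he hk
    replace j1 := j1.mono (hav e he heT)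
    replace j2 := j2.mono (hav e he heT)
    obtain ⟨ψ, k1, k2, k3⟩ := ec_reduce θ φ
    rw [← k3] at j1
    rw [ec_pi, ← k3, ← ec_pi] at j2
    have n1 : θ ≠ ψ := fun h0 => j1.target_mem.1 (h0 ▸ h.joined.source_mem)
    have n2 : θ + Real.pi ≠ ψ := fun h0 => j1.target_mem.1 (h0 ▸ h.joined.target_mem)
    rw [hk] at hm
    have hm' : up (α e.1) ↔ up (α e.2) := by
      revert hm; cases κ e.2 <;> simp
    rcases lt_or_gt_of_ne n2 with h1 | h1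
    · refine hlow _ ψ h1 k2 j1 (hm'.2 ⟨ψ - Real.pi, by linarith, by linarith, ?_⟩)
      rwa [← ec_two_pi, show ψ - Real.pi + 2 * Real.pi = ψ + Real.pi by ring]
    · have h2 := lt_of_le_of_ne k1 n1
      exact hlow _ (ψ + Real.pi) (by linarith) (by linarith) j2 (hm'.1 ⟨ψ, h2, h1, j1⟩)
  · have j1 := (hne e he hk).mono (hav e he heT)
    have hm' : up (α e.1) ↔ up (α e.2) :=
      ⟨fun ⟨φ, a, b, c⟩ => ⟨φ, a, b, j1.symm.trans c⟩, fun ⟨φ, a, b, c⟩ => ⟨φ, a, b, j1.trans c⟩⟩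
    simp only [hm'] at hm
    exact hk (by revert hm; cases decide (up (α e.2)) <;> simp)

end Vale.Agent.P040
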