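import Vale.Agent.P040.Geo

/-! The lower bound when the equator halves the first family. -/

namespace Vale.Agent.P040

open Set

theorem exists_enum (Θ : Finset ℝ) (hne : Θ.Nonempty) (h : ∀ θ ∈ Θ, 0 ≤ θ ∧ θ < Real.pi) :
    ∃ (K : ℕ) (φ : ℕ → ℝ), StrictMono φ ∧ (∀ i, φ (i + K) = φ i + Real.pi) ∧
      ∀ θ ∈ Θ, ∃ j < K, φ j = θ := by
  have hK : 0 < Θ.card := hne.card_pos
  let f := Θ.orderEmbOfFin rfl
  have hf : ∀ i, 0 ≤ f i ∧ f i < Real.pi := fun i => h _ (Θ.orderEmbOfFin_mem rfl i)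
  refine ⟨Θ.card, fun i => f ⟨i % Θ.card, Nat.mod_lt _ hK⟩ + (i / Θ.card : ℕ) * Real.pi,
    fun i j hij => ?_, fun i => ?_, fun θ hθ => ?_⟩
  · rcases (Nat.div_le_div_right (c := Θ.card) hij.le).lt_or_eq with h1 | h1
    · have h2 : ((i / Θ.card : ℕ) : ℝ) + 1 ≤ (j / Θ.card : ℕ) := by exact_mod_cast h1
      have := hf ⟨i % Θ.card, Nat.mod_lt _ hK⟩
      have := hf ⟨j % Θ.card, Nat.mod_lt _ hK⟩
      dsimp only
      nlinarith [Real.pi_pos]
    · have h2 : i % Θ.card < j % Θ.card := by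
        have a1 := Nat.div_add_mod i Θ.card
        have a2 := Nat.div_add_mod j Θ.card
        rw [h1] at a1
        omega
      have := f.strictMono (show (⟨i % Θ.card, Nat.mod_lt _ hK⟩ : Fin Θ.card) <
        ⟨j % Θ.card, Nat.mod_lt _ hK⟩ from h2)
      dsimp only
      rw [h1]; linarith
  · simp only [Nat.add_mod_right, Nat.add_div_right _ hK]
    push_cast; ring
  · have : θ ∈ Set.range f := by rw [Finset.range_orderEmbOfFin]; exact hθ
    obtain ⟨j, rfl⟩ := this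
    exact ⟨j, j.2, by simp [Nat.mod_eq_of_lt j.2, Nat.div_eq_of_lt j.2]⟩

noncomputable def sn (v : V) : ℝ := if 0 < v.2 then 1 else -1

noncomputable def nm (v : V) : V := sn v • v

theorem sn_sq (v : V) : sn v * sn v = 1 := by unfold sn; split_ifs <;> norm_num

theorem nm_pos {v : V} (h : v.2 ≠ 0) : 0 < (nm v).2 := by
  change 0 < sn v * v.2
  unfold sn
  split_ifs with h1
  · linarith
  · have := lt_of_le_of_ne (not_lt.1 h1) h
    linarith

theorem sn_same {u v : V} (h : decide (0 < u.2) = decide (0 < v.2)) : sn u * sn v = 1 := by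
  rw [decide_eq_decide] at h
  rw [← sn_sq v]; unfold sn; simp only [h]

theorem sn_opp {u v : V} (h : decide (0 < u.2) ≠ decide (0 < v.2)) : sn u * sn v = -1 := by
  rw [Ne, decide_eq_decide] at h
  unfold sn
  split_ifs with h1 h2 h2
  · exact absurd (iff_of_true h1 h2) h
  · norm_num
  · norm_num
  · exact absurd (iff_of_false h1 h2) h

theorem InW_nm {u u' : V} {s t : ℝ} (h : 0 ≤ s * t * (sn u * sn u')) :
    InW u u' (s • nm u - t • nm u') :=
  ⟨s * sn u, t * sn u', by linarith, by rw [nm, nm, smul_smul, smul_smul]⟩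

theorem Sp_nm {u u' v : V} (h : Sp u u' (nm v)) : Sp u u' v := by
  have := Submodule.smul_mem _ (sn v) h
  rwa [nm, smul_smul, sn_sq, one_smul] at this

theorem q_ne {u u' : V} (hu : u.2 ≠ 0) (h : Ind u u') :
    (nm u').2 • nm u - (nm u).2 • nm u' ≠ 0 := by
  intro h0
  rw [sub_eq_zero] at h0
  have h1 : ((nm u').2 * sn u) • u = ((nm u).2 * sn u') • u' := by
    rw [mul_smul, mul_smul]; exact h0
  have h2 := (h _ _ h1).2
  have h3 := sn_sq u'
  have h4 : (nm u).2 = 0 := by linear_combination (sn u') * h2 - (nm u).2 * h3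
  exact (nm_pos hu).ne' h4

theorem InW_opp {u u' : V} (h : decide (0 < u.2) ≠ decide (0 < u'.2)) {s t : ℝ} (hs : 0 ≤ s)
    (ht : 0 ≤ t) : InW u u' (s • nm u + t • nm u') := by
  have := InW_nm (u := u) (u' := u') (s := s) (t := -t) (by rw [sn_opp h]; nlinarith)
  rwa [neg_smul, sub_neg_eq_add] at this

variable {m : ℕ} {a : Fin m → V}

theorem lowerA (ha : ∀ i, (a i).2 ≠ 0) (hia : ∀ e ∈ PR m, Ind (a e.1) (a e.2)) {θ : ℝ} {c : ℕ}
    {S : Set ℂ} (h : Ch (PR m) (WA a) (ec θ) (ec (θ + Real.pi)) c S) : dd m ≤ c := by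
  refine lower (fun i => pj (nm (a i))) (fun i => decide (0 < (a i).2)) (fun e φ h => ?_)
    (fun e _ hk => ?_) (fun e he hk => ?_) h
  · rw [ec_mem_WA] at h ⊢
    have := h.neg
    rwa [ec_pi, Prod.neg_mk, neg_neg, neg_zero] at this
  · exact joined_sg (fun t ht => HH_seg (nm_pos (ha _)) (HH_pos (nm_pos (ha _))) ht)
      fun t ht => InW_opp hk (sub_nonneg.2 ht.2) ht.1
  · have hq := q_ne (ha e.1) (hia e he)
    have hx := nm_pos (ha e.1)
    have hy := nm_pos (ha e.2)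
    obtain ⟨x, hx0⟩ : ∃ x, x = nm (a e.1) := ⟨_, rfl⟩
    obtain ⟨y, hy0⟩ : ∃ y, y = nm (a e.2) := ⟨_, rfl⟩
    have hW : ∀ s t : ℝ, 0 ≤ s * t → InW (a e.1) (a e.2) (s • x - t • y) := fun s t h => by
      rw [hx0, hy0]; exact InW_nm (by rw [sn_same hk]; linarith)
    rw [← hx0, ← hy0] at hq ⊢
    rw [← hx0] at hx
    rw [← hy0] at hy
    have q0 : (y.2 • x - x.2 • y).2 = 0 := by
      change y.2 * x.2 - x.2 * y.2 = 0; ring
    obtain ⟨φ, k1, k2⟩ := pj_bd q0 hq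
    refine ⟨φ, k1 ▸ joined_sg (fun t ht => HH_seg hx ⟨q0.ge, hq⟩ ht) fun t ht => ?_,
      k2 ▸ joined_sg (fun t ht => HH_seg hy ⟨by rw [Prod.snd_neg, q0, neg_zero],
        neg_ne_zero.2 hq⟩ ht) fun t ht => ?_⟩
    · rw [show (1 - t) • x + t • (y.2 • x - x.2 • y) = (1 - t + t * y.2) • x - (t * x.2) • y by
        module]
      have := sub_nonneg.2 ht.2
      have := ht.1
      exact hW _ _ (by positivity)
    · rw [show (1 - t) • y + t • (-(y.2 • x - x.2 • y)) =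
        (-(t * y.2)) • x - (-(1 - t + t * x.2)) • y by module]
      have := sub_nonneg.2 ht.2
      have := ht.1
      exact hW _ _ (by rw [neg_mul_neg]; positivity)

theorem exists_good (ha : ∀ i, (a i).2 ≠ 0) : ∃ θ, 0 ≤ θ ∧ θ < Real.pi ∧
    ∀ e : Fin m × Fin m, ¬ Sp (a e.1) (a e.2) (ec θ, 0) := by
  have h1 : (⋃ e : Fin m × Fin m,
      {θ ∈ Ico 0 Real.pi | Sp (a e.1) (a e.2) (ec θ, 0)}).Finite := by
    refine finite_iUnion fun e => Set.Subsingleton.finite fun t ht t' ht' => ?_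
    exact bd_uniq (ha _) ht.2 ht'.2
      (abs_lt.2 ⟨by linarith [ht.1.1, ht'.1.2], by linarith [ht.1.2, ht'.1.1]⟩)
  obtain ⟨θ, h2, h3⟩ := (Ico_infinite Real.pi_pos).exists_notMem_finite h1
  exact ⟨θ, h2.1, h2.2, fun e he => h3 (mem_iUnion.2 ⟨e, h2, he⟩)⟩

theorem pj_bd' (q : V) (h0 : q.2 = 0) : ∃ θ, 0 ≤ θ ∧ θ < Real.pi ∧ (q ≠ 0 →
    (pj q = ec θ ∧ pj (-q) = ec (θ + Real.pi)) ∨ (pj q = ec (θ + Real.pi) ∧ pj (-q) = ec θ)) := by
  by_cases h : q = 0
  · exact ⟨0, le_rfl, Real.pi_pos, fun h' => absurd h h'⟩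
  obtain ⟨φ, k1, k2⟩ := pj_bd h0 h
  obtain ⟨ψ, a1, a2, a3⟩ := ec_reduce 0 φ
  rw [ec_pi, ← a3, ← ec_pi] at k2
  rw [← a3] at k1
  rcases lt_or_ge ψ Real.pi with h1 | h1
  · exact ⟨ψ, a1, h1, fun _ => Or.inl ⟨k1, k2⟩⟩
  · refine ⟨ψ - Real.pi, by linarith, by linarith, fun _ => Or.inr ⟨by rwa [sub_add_cancel], ?_⟩⟩
    rw [k2, ← ec_two_pi (ψ - _)]; congr 1; ring

theorem pair_same {G X : Type} (Γ : Finset G) (s : G → X → Bool) (d : X → X → ℕ)
    (h : ∀ x y, (Γ.filter fun γ => s γ x ≠ s γ y).card ≤ 2 * (d x y + d y x)) (x y Q Q' : X)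
    (hQ : ∀ γ ∈ Γ, s γ Q ≠ s γ Q') : (Γ.filter fun γ => s γ x = s γ y).card ≤
      2 * (d x Q + d Q' y + (d y Q' + d Q x)) := by
  classical
  have h1 := h x Q
  have h2 := h Q' y
  refine le_trans (Finset.card_le_card (t := (Γ.filter fun γ => s γ x ≠ s γ Q) ∪
    Γ.filter fun γ => s γ Q' ≠ s γ y) fun γ hγ => ?_) ((Finset.card_union_le _ _).trans (by omega))
  simp only [Finset.mem_union, Finset.mem_filter] at hγ ⊢
  have := hQ γ hγ.1
  by_cases h3 : s γ x = s γ Q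
  · exact Or.inr ⟨hγ.1, fun h4 => this (by rw [← h3, hγ.2, h4])⟩
  · exact Or.inl ⟨hγ.1, h3⟩

open Classical in
theorem core {n : ℕ} {b : Fin n → V} (ha : ∀ i, (a i).2 ≠ 0) (hb : ∀ j, (b j).2 ≠ 0)
    (hia : ∀ e ∈ PR m, Ind (a e.1) (a e.2)) (hib : ∀ f ∈ PR n, Ind (b f.1) (b f.2))
    (hs : ∀ e ∈ PR m, ∀ f ∈ PR n, ¬ (Sp (a e.1) (a e.2) (b f.1) ∧ Sp (a e.1) (a e.2) (b f.2)))
    (hh : (Finset.univ.filter fun i => decide (0 < (a i).2) = true).card = m / 2) :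
    dd m * dd n ≤ ∑ f ∈ PR n, ((PR m).filter fun e => Meet (a e.1) (a e.2) (b f.1) (b f.2)).card := by
  have hpi := Real.pi_pos
  obtain ⟨θ₀, g1, g2, g3⟩ := exists_good ha
  choose τ t1 t2 t3 using fun f : Fin n × Fin n =>
    pj_bd' ((nm (b f.2)).2 • nm (b f.1) - (nm (b f.1)).2 • nm (b f.2))
      (by change (nm (b f.2)).2 * (nm (b f.1)).2 - (nm (b f.1)).2 * (nm (b f.2)).2 = 0; ring)
  obtain ⟨K, φ, hφ, per, hΘ⟩ := exists_enum (insert θ₀ (Finset.univ.image τ))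
    (Finset.insert_nonempty _ _) (by
      intro θ hθ
      rcases Finset.mem_insert.1 hθ with rfl | hθ
      · exact ⟨g1, g2⟩
      · obtain ⟨f, -, rfl⟩ := Finset.mem_image.1 hθ
        exact ⟨t1 f, t2 f⟩)
  obtain ⟨j₀, hj₀, hj₀'⟩ := hΘ θ₀ (Finset.mem_insert_self _ _)
  have st : ∀ i, φ i ≤ φ (i + 1) ∧ φ (i + 1) ≤ φ i + Real.pi := fun i =>
    ⟨hφ.monotone (by omega), per i ▸ hφ.monotone (by omega)⟩
  have cp : ∀ i, Con (PR m) (WA a) (ec (φ 0)) (ec (φ i)) := by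
    intro i
    induction i with
    | zero =>
      obtain ⟨S, h⟩ := ch_refl (P := PR m) (W := WA a) (norm_ec (φ 0)).le
      exact ⟨⟨_, _, h⟩, _, _, h⟩
    | succ i ih =>
      obtain ⟨_, h1⟩ := fwd_ch ha (st i).1 (st i).2
      obtain ⟨_, h2⟩ := bwd_ch ha (st i).1 (st i).2
      exact ih.of_ch h1 h2
  have cb : ∀ j, Con (PR m) (WA a) (ec (φ 0)) (pj (nm (b j))) := by
    intro j
    obtain ⟨_, h1⟩ := seg_ch (a := a) (fun t ht => HH_seg' (HH_ec θ₀) (nm_pos (hb j)) ht)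
      fun e _ h => g3 e h.1
    obtain ⟨_, h2⟩ := seg_ch (a := a) (fun t ht => HH_seg (nm_pos (hb j)) (HH_ec θ₀) ht)
      fun e _ h => g3 e h.2
    rw [pj_ec, ← hj₀'] at h1 h2
    exact (cp j₀).of_ch h1 h2
  have per2 : ∀ i, φ (i + 2 * K) = φ i + 2 * Real.pi := fun i => by
    rw [two_mul, ← add_assoc, per, per]; ring
  have hmono := mono_le_dd _ hh
  have hI : ∀ i, ∀ l ∈ Finset.Ico i (i + K), φ i ≤ φ l ∧ φ (l + 1) ≤ φ i + Real.pi :=
    fun i l hl => by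
      rw [Finset.mem_Ico] at hl
      exact ⟨hφ.monotone hl.1, per i ▸ hφ.monotone hl.2⟩
  let X := {z // Con (PR m) (WA a) (ec (φ 0)) z}
  let d : X → X → ℕ := fun x y => ds (PR m) (WA a) x.1 y.1
  let p : ℕ → X := fun i => ⟨_, cp i⟩
  obtain ⟨Γ, s, hΓ, hcut, hsep⟩ := exists_cuts d p K (dd m) (fun x => x.2.ds_self)
    (fun x y z => x.2.tri y.2 z.2) (fun i => Subtype.ext (by
      change ec _ = ec _
      rw [per2, ec_two_pi]))
    (fun i => by
      obtain ⟨S, h⟩ := (cp i).ch (cp (i + K))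
      change dd m ≤ ds _ _ (ec _) (ec _)
      rw [per] at h ⊢
      exact lowerA ha hia h)
    (fun i => by
      refine le_trans (Finset.sum_le_sum fun l _ => (fwd_ch ha (st l).1 (st l).2).choose_spec.ds_le)
        (le_trans (win ha _ _ (fun l => Ico (φ l) (φ (l + 1))) (fun l _ e he => mem_hits.1 he)
        fun l hl l' hl' t ht t' ht' => ⟨?_, fun h => ?_⟩) hmono)
      · have := hI i l hl
        have := hI i l' hl'
        exact abs_lt.2 ⟨by linarith [ht.1, ht'.2], by linarith [ht.2, ht'.1]⟩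
      · subst h
        have a1 := hφ.lt_iff_lt.1 (ht.1.trans_lt ht'.2)
        have a2 := hφ.lt_iff_lt.1 (ht'.1.trans_lt ht.2)
        omega)
    (fun i => by
      refine le_trans (Finset.sum_le_sum fun l _ => (bwd_ch ha (st l).1 (st l).2).choose_spec.ds_le)
        (le_trans (win ha _ _ (fun l => Ioc (φ l) (φ (l + 1))) (fun l _ e he => ?_)
        fun l hl l' hl' t ht t' ht' => ⟨?_, fun h => ?_⟩) hmono)
      · obtain ⟨h1, t, ht, h2⟩ := mem_hits.1 he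
        exact ⟨h1, -t, ⟨by linarith [ht.2], by linarith [ht.1]⟩, h2⟩
      · have := hI i l hl
        have := hI i l' hl'
        exact abs_lt.2 ⟨by linarith [ht.1, ht'.2], by linarith [ht.2, ht'.1]⟩
      · subst h
        have a1 := hφ.lt_iff_lt.1 (ht.1.trans_le ht'.2)
        have a2 := hφ.lt_iff_lt.1 (ht'.1.trans_le ht.2)
        omega)
    (fun i₁ i₂ i₃ i₄ h1 h2 h3 h4 x y => by
      rcases uni (hφ h1) (hφ h2) (hφ h3) (per2 i₁ ▸ hφ h4) (cp _) (cp _) (cp _) (cp _) x.2 y.2 with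
        (h | h) | (h | h)
      · exact ⟨_, _, Or.inl rfl, Or.inl rfl, h⟩
      · exact ⟨_, _, Or.inl rfl, Or.inr rfl, h⟩
      · exact ⟨_, _, Or.inr rfl, Or.inl rfl, h⟩
      · exact ⟨_, _, Or.inr rfl, Or.inr rfl, h⟩)
  let B : Fin n → X := fun j => ⟨_, cb j⟩
  refine count_cuts Γ hΓ (fun γ j => xor (s γ (B j)) (decide (0 < (b j).2))) _ fun f hf => ?_
  have hx := nm_pos (hb f.1)
  have hy := nm_pos (hb f.2)
  have s1 : ∀ e ∈ PR m, ¬ (Sp (a e.1) (a e.2) (nm (b f.1)) ∧ Sp (a e.1) (a e.2) (nm (b f.2))) :=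
    fun e he h => hs e he f hf ⟨Sp_nm h.1, Sp_nm h.2⟩
  have s2 : ∀ e ∈ PR m, ¬ (Sp (a e.1) (a e.2) (nm (b f.2)) ∧ Sp (a e.1) (a e.2) (nm (b f.1))) :=
    fun e he h => s1 e he h.symm
  obtain ⟨M, hM⟩ : ∃ M, M = (PR m).filter fun e => Meet (a e.1) (a e.2) (b f.1) (b f.2) := ⟨_, rfl⟩
  rw [← hM]
  have mM : ∀ e ∈ PR m, ∀ v, v ≠ 0 → InW (a e.1) (a e.2) v → InW (b f.1) (b f.2) v → e ∈ M :=
    fun e he v h1 h2 h3 => hM ▸ Finset.mem_filter.2 ⟨he, v, h1, h2, h3⟩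
  by_cases hk : decide (0 < (b f.1).2) = decide (0 < (b f.2).2)
  · have hq := q_ne (hb f.1) (hib f hf)
    have w1 := (two hx hy hq s1 M fun e he s t h1 h2 h3 h4 =>
      mM e he _ h3 h4 (InW_nm (by rw [sn_same hk]; positivity))).2
    have w2 := (two hy hx (by rw [← neg_sub]; exact neg_ne_zero.2 hq) s2 M
      fun e he s t h1 h2 h3 h4 => mM e he _ h3 h4 (by
        have := (InW_nm (u := b f.1) (u' := b f.2) (s := t) (t := s)
          (by rw [sn_same hk]; positivity)).neg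
        rwa [neg_sub] at this)).2
    rw [neg_sub, ← neg_sub ((nm (b f.2)).2 • nm (b f.1))] at w2
    obtain ⟨j, hj, hj'⟩ := hΘ (τ f) (Finset.mem_insert_of_mem (Finset.mem_image_of_mem _
      (Finset.mem_univ f)))
    have e1 : (Γ.filter fun γ => xor (s γ (B f.1)) (decide (0 < (b f.1).2)) =
        xor (s γ (B f.2)) (decide (0 < (b f.2).2))) = Γ.filter fun γ => s γ (B f.1) = s γ (B f.2) :=
      Finset.filter_congr fun γ _ => by rw [hk]; simp
    rw [e1]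
    rcases t3 f hq with ⟨k1, k2⟩ | ⟨k1, k2⟩ <;> rw [k1, k2, ← hj', ← per] at w1 w2
    · exact (pair_same Γ s d hcut _ _ _ _ (hsep j hj)).trans
        ((Nat.mul_le_mul_left 2 (add_le_add w1 w2)).trans (by omega))
    · exact (pair_same Γ s d hcut _ _ _ _ fun γ hγ => (hsep j hj γ hγ).symm).trans
        ((Nat.mul_le_mul_left 2 (add_le_add w1 w2)).trans (by omega))
  · have H1 : ∀ t ∈ Icc (0 : ℝ) 1, HH ((1 - t) • nm (b f.1) + t • nm (b f.2)) :=
      fun t ht => HH_seg hx (HH_pos hy) ht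
    have H2 : ∀ t ∈ Icc (0 : ℝ) 1, HH ((1 - t) • nm (b f.2) + t • nm (b f.1)) :=
      fun t ht => HH_seg hy (HH_pos hx) ht
    have w1 : d (B f.1) (B f.2) ≤ M.card := (seg_ch H1 s1).choose_spec.ds_le.trans
      (Finset.card_le_card fun e he => by
        obtain ⟨h1, t, t0, t1, h2, h3⟩ := mem_hits_sg H1 he
        exact mM e h1 _ h2 h3 (InW_opp hk (by linarith) t0))
    have w2 : d (B f.2) (B f.1) ≤ M.card := (seg_ch H2 s2).choose_spec.ds_le.trans
      (Finset.card_le_card fun e he => by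
        obtain ⟨h1, t, t0, t1, h2, h3⟩ := mem_hits_sg H2 he
        exact mM e h1 _ h2 h3 (by rw [add_comm]; exact InW_opp hk t0 (by linarith)))
    refine le_trans (Finset.card_le_card fun γ hγ => ?_) ((hcut (B f.1) (B f.2)).trans (by omega))
    simp only [Finset.mem_filter] at hγ ⊢
    refine ⟨hγ.1, fun h => hk ?_⟩
    have := hγ.2
    rw [h] at this
    simpa using this

end Vale.Agent.P040
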