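import Mathlib

/-! Definitions used in the statement. -/

namespace Vale.Agent.P040

/-- `d_r = ⌊r/2⌋ ⌊(r-1)/2⌋` -/
def dd (r : ℕ) : ℕ := (r / 2) * ((r - 1) / 2)

/-- The crossing points of a family of open arcs: the points lying on two different arcs. -/
def crossPts {ι X : Type} (arc : ι → Set X) : Set X := {x | ∃ e f, e ≠ f ∧ x ∈ arc e ∧ x ∈ arc f}

/-- The interior of the shortest geodesic arc between two points of the unit sphere. -/
def geoArc (u v : EuclideanSpace ℝ (Fin 3)) : Set (EuclideanSpace ℝ (Fin 3)) :=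
  {x | ‖x‖ = 1 ∧ ∃ s t : ℝ, 0 < s ∧ 0 < t ∧ x = s • u + t • v}

end Vale.Agent.P040
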