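import Vale.Agent.P039.Top1

/-! Two paths in the closed disc with interleaved end points on the circle meet. -/

namespace Vale.Agent.P040

open Complex Vale.Agent.P039 Set

/-- the point of the unit circle with angle `θ` -/
noncomputable def ec (θ : ℝ) : ℂ := exp (θ * I)

theorem norm_ec (θ : ℝ) : ‖ec θ‖ = 1 := norm_exp_ofReal_mul_I θ

theorem ec_mul (θ ψ : ℝ) : ec θ * ec ψ = ec (θ + ψ) := by
  unfold ec; rw [← exp_add]; congr 1; push_cast; ring

theorem ec_zero : ec 0 = 1 := by simp [ec]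

theorem ec_pi (θ : ℝ) : ec (θ + Real.pi) = -ec θ := by
  rw [← ec_mul]; unfold ec; rw [exp_pi_mul_I]; ring

theorem ec_two_pi (θ : ℝ) : ec (θ + 2 * Real.pi) = ec θ := by
  rw [two_mul, ← add_assoc, ec_pi, ec_pi, neg_neg]

theorem continuous_ec : Continuous ec := by unfold ec; fun_prop

theorem ec_re (θ : ℝ) : (ec θ).re = Real.cos θ := exp_ofReal_mul_I_re θ
theorem ec_im (θ : ℝ) : (ec θ).im = Real.sin θ := exp_ofReal_mul_I_im θ

theorem arg_one_sub_ec {ψ : ℝ} (h0 : 0 < ψ) (h1 : ψ < 2 * Real.pi) :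
    arg (1 - ec ψ) = (ψ - Real.pi) / 2 := by
  have hs : 0 < 2 * Real.sin (ψ / 2) :=
    mul_pos two_pos (Real.sin_pos_of_pos_of_lt_pi (by linarith) (by linarith))
  have := arg_mul_cos_add_sin_mul_I hs (θ := (ψ - Real.pi) / 2)
    ⟨by linarith [Real.pi_pos], by linarith [Real.pi_pos]⟩
  rw [← this]
  congr 1
  have e1 : (ψ - Real.pi) / 2 = ψ / 2 - Real.pi / 2 := by ring
  have e2 : Real.cos ψ = 1 - 2 * Real.sin (ψ / 2) ^ 2 := by
    have := Real.cos_two_mul (ψ / 2)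
    have h2 := Real.sin_sq_add_cos_sq (ψ / 2)
    rw [show 2 * (ψ / 2) = ψ by ring] at this; linarith
  have e3 : Real.sin ψ = 2 * Real.sin (ψ / 2) * Real.cos (ψ / 2) := by
    rw [← Real.sin_two_mul]; congr 1; ring
  rw [← ofReal_cos, ← ofReal_sin, e1, Real.cos_sub_pi_div_two, Real.sin_sub_pi_div_two]
  apply Complex.ext
  · simp only [sub_re, one_re, ec_re, mul_re, ofReal_re, ofReal_im, add_re, I_re, I_im, add_im,
      mul_im]
    rw [e2]; ring
  · simp only [sub_im, one_im, ec_im, mul_re, ofReal_re, ofReal_im, add_re, I_re, I_im, add_im,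
      mul_im]
    rw [e3]; ring

theorem arg_one_sub_ec' {ψ : ℝ} (h0 : ψ < 0) (h1 : -(2 * Real.pi) < ψ) :
    arg (1 - ec ψ) = (ψ + Real.pi) / 2 := by
  rw [← ec_two_pi, arg_one_sub_ec (by linarith) (by linarith)]; ring

theorem logInc_disc (γ : ℝ → ℂ) (hγ : Continuous γ) (h1 : ∀ t, ‖γ t‖ ≤ 1) (θ : ℝ)
    (h2 : ∀ t, γ t ≠ ec θ) :
    logInc γ (ec θ) = log (1 - γ 1 * ec (-θ)) - log (1 - γ 0 * ec (-θ)) := by
  have hinv : ec (-θ) * ec θ = 1 := by rw [ec_mul, neg_add_cancel, ec_zero]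
  have hne : ec θ ≠ 0 := exp_ne_zero _
  have hre : ∀ t, 0 < (1 - γ t * ec (-θ)).re := by
    intro t
    have hn : ‖γ t * ec (-θ)‖ ≤ 1 := by rw [norm_mul, norm_ec, mul_one]; exact h1 t
    have hle := (re_le_norm _).trans hn
    rw [sub_re, one_re, sub_pos]
    refine lt_of_le_of_ne hle fun he => h2 t ?_
    have h3 : γ t * ec (-θ) = 1 := by
      have h4 := Complex.sq_norm (γ t * ec (-θ))
      rw [normSq_apply, he] at h4
      have h5 : ‖γ t * ec (-θ)‖ ^ 2 ≤ 1 := by nlinarith [norm_nonneg (γ t * ec (-θ))]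
      have h6 : (γ t * ec (-θ)).im = 0 := by nlinarith [mul_self_nonneg (γ t * ec (-θ)).im]
      exact Complex.ext he h6
    calc γ t = γ t * ec (-θ) * ec θ := by rw [mul_assoc, hinv, mul_one]
      _ = ec θ := by rw [h3, one_mul]
  rw [logInc_eq γ (ec θ) (fun t => log (1 - γ t * ec (-θ)) + log (-ec θ)) ?_ fun t => ?_]
  · ring
  · refine Continuous.add (Continuous.clog (by fun_prop) fun t => Or.inl (hre t)) continuous_const
  · rw [exp_add, exp_log (neg_ne_zero.2 hne), exp_log fun h => by simpa [h] using hre t]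
    linear_combination γ t * hinv

theorem disc_cross {θ₁ θ₂ θ₃ θ₄ : ℝ} (h12 : θ₁ < θ₂) (h23 : θ₂ < θ₃) (h34 : θ₃ < θ₄)
    (h41 : θ₄ < θ₁ + 2 * Real.pi) {S T : Set ℂ} (hS : ∀ z ∈ S, ‖z‖ ≤ 1) (hT : ∀ z ∈ T, ‖z‖ ≤ 1)
    (jS : JoinedIn S (ec θ₁) (ec θ₃)) (jT : JoinedIn T (ec θ₂) (ec θ₄)) : ∃ z ∈ S, z ∈ T := by
  by_contra hcon
  obtain ⟨α, hα⟩ := jS
  obtain ⟨β, hβ⟩ := jT
  have mα : ∀ t, α.extend t ∈ S := fun t => by
    obtain ⟨s, hs⟩ : α.extend t ∈ range α := α.extend_range ▸ mem_range_self t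
    exact hs ▸ hα s
  have mβ : ∀ t, β.extend t ∈ T := fun t => by
    obtain ⟨s, hs⟩ : β.extend t ∈ range β := β.extend_range ▸ mem_range_self t
    exact hs ▸ hβ s
  have hne : ∀ s t, α.extend s ≠ β.extend t := fun s t h => hcon ⟨_, mα s, h ▸ mβ t⟩
  have key := logInc_square α.extend β.extend α.continuous_extend β.continuous_extend hne
  have a0 : α.extend 0 = ec θ₁ := α.extend_zero
  have a1 : α.extend 1 = ec θ₃ := α.extend_one
  have b0 : β.extend 0 = ec θ₂ := β.extend_zero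
  have b1 : β.extend 1 = ec θ₄ := β.extend_one
  rw [a0, a1, b0, b1,
    logInc_disc _ α.continuous_extend (fun t => hS _ (mα t)) θ₄ fun t => b1 ▸ hne t 1,
    logInc_disc _ α.continuous_extend (fun t => hS _ (mα t)) θ₂ fun t => b0 ▸ hne t 0,
    logInc_disc _ β.continuous_extend (fun t => hT _ (mβ t)) θ₃ fun t => a1 ▸ (hne 1 t).symm,
    logInc_disc _ β.continuous_extend (fun t => hT _ (mβ t)) θ₁ fun t => a0 ▸ (hne 0 t).symm,
    a0, a1, b0, b1] at key
  have k2 := congrArg Complex.im key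
  simp only [sub_im, log_im, ec_mul] at k2
  rw [arg_one_sub_ec' (ψ := θ₃ + -θ₄) (by linarith) (by linarith),
    arg_one_sub_ec' (ψ := θ₁ + -θ₄) (by linarith) (by linarith),
    arg_one_sub_ec (ψ := θ₃ + -θ₂) (by linarith) (by linarith),
    arg_one_sub_ec' (ψ := θ₁ + -θ₂) (by linarith) (by linarith),
    arg_one_sub_ec (ψ := θ₄ + -θ₃) (by linarith) (by linarith),
    arg_one_sub_ec' (ψ := θ₂ + -θ₃) (by linarith) (by linarith),
    arg_one_sub_ec (ψ := θ₄ + -θ₁) (by linarith) (by linarith),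
    arg_one_sub_ec (ψ := θ₂ + -θ₁) (by linarith) (by linarith)] at k2
  linarith [Real.pi_pos]

end Vale.Agent.P040
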