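import Vale.Agent.P040.Half

/-! From long segments to crossing points. -/

namespace Vale.Agent.P040

open Finset

open Classical in
theorem count_pts {m n : ℕ} {X : Type} (arc : Fin m × Fin n → Set X)
    (h3 : ∀ x e f g, x ∈ arc e → x ∈ arc f → x ∈ arc g → e = f ∨ e = g ∨ f = g)
    (R : Fin m × Fin m → Fin n × Fin n → Prop)
    (hR : ∀ e ∈ PR m, ∀ f ∈ PR n, R e f → ∃ x, (x ∈ arc (e.1, f.1) ∧ x ∈ arc (e.2, f.2)) ∨
      (x ∈ arc (e.1, f.2) ∧ x ∈ arc (e.2, f.1))) :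
    ((∑ f ∈ PR n, ((PR m).filter fun e => R e f).card : ℕ) : ℕ∞) ≤ (crossPts arc).encard := by
  rw [← card_sigma, ← Set.encard_coe_eq_coe_finsetCard]
  choose g hg using hR
  have hm : ∀ {u : Σ _ : Fin n × Fin n, Fin m × Fin m},
      u ∈ ((PR n).sigma fun f => (PR m).filter fun e => R e f) →
      u.2 ∈ PR m ∧ u.1 ∈ PR n ∧ R u.2 u.1 := fun h => by
    rw [mem_sigma, mem_filter] at h
    exact ⟨h.2.1, h.1, h.2.2⟩
  rw [← ENat.card_coe_set_eq, ← Set.encard_univ]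
  refine Set.encard_le_encard_of_injOn
    (f := fun u => g u.1.2 (hm u.2).1 u.1.1 (hm u.2).2.1 (hm u.2).2.2) (fun u _ => ?_)
    fun u _ v _ h => ?_
  · have h1 : u.1.2.1 < u.1.2.2 := (mem_filter.1 (hm u.2).1).2
    rcases hg u.1.2 (hm u.2).1 u.1.1 (hm u.2).2.1 (hm u.2).2.2 with h | h
    · exact ⟨_, _, fun h0 => h1.ne (congrArg Prod.fst h0), h⟩
    · exact ⟨_, _, fun h0 => h1.ne (congrArg Prod.fst h0), h⟩
  · have k1 := hg u.1.2 (hm u.2).1 u.1.1 (hm u.2).2.1 (hm u.2).2.2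
    have k2 := hg v.1.2 (hm v.2).1 v.1.1 (hm v.2).2.1 (hm v.2).2.2
    dsimp only at h
    rw [← h] at k2
    generalize g u.1.2 (hm u.2).1 u.1.1 (hm u.2).2.1 (hm u.2).2.2 = x at k1 k2
    obtain ⟨⟨⟨f1, f2⟩, e1, e2⟩, hu⟩ := u
    obtain ⟨⟨⟨f1', f2'⟩, e1', e2'⟩, hv⟩ := v
    have a1 : e1 < e2 := (mem_filter.1 (hm hu).1).2
    have a2 : f1 < f2 := (mem_filter.1 (hm hu).2.1).2
    have a3 : e1' < e2' := (mem_filter.1 (hm hv).1).2
    have a4 : f1' < f2' := (mem_filter.1 (hm hv).2.1).2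
    have : f1 = f1' ∧ f2 = f2' ∧ e1 = e1' ∧ e2 = e2' := by
      rcases k1 with k1 | k1 <;> rcases k2 with k2 | k2 <;>
      · have b1 := h3 x _ _ _ k1.1 k1.2 k2.1
        have b2 := h3 x _ _ _ k1.1 k1.2 k2.2
        simp only [Prod.mk.injEq, Fin.ext_iff, Fin.lt_def] at a1 a2 a3 a4 b1 b2 ⊢
        omega
    obtain ⟨rfl, rfl, rfl, rfl⟩ := this
    rfl

section

variable {E : Type} [AddCommGroup E] [Module ℝ E]

/-- the open cone -/
def OC (u v : E) : Set E := {x | ∃ s t : ℝ, 0 < s ∧ 0 < t ∧ x = s • u + t • v}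

theorem OC.of_smul {u v x : E} {c s t : ℝ} (hc : 0 < c) (hs : 0 < s) (ht : 0 < t)
    (h : c • x = s • u + t • v) : x ∈ OC u v :=
  ⟨c⁻¹ * s, c⁻¹ * t, by positivity, by positivity, by
    rw [mul_smul, mul_smul, ← smul_add, ← h, inv_smul_smul₀ hc.ne']⟩

theorem InW.pos {u u' v : E} (h : InW u u' v) :
    ∃ s t : ℝ, 0 ≤ s ∧ 0 ≤ t ∧ (v = s • u - t • u' ∨ v = t • u' - s • u) := by
  obtain ⟨s, t, h1, rfl⟩ := h
  rcases mul_nonneg_iff.1 h1 with h | h
  · exact ⟨s, t, h.1, h.2, Or.inl rfl⟩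
  · exact ⟨-s, -t, by linarith [h.1], by linarith [h.2], Or.inr (by module)⟩

theorem cross_of_eq {a a' b b' : E} {s t s' t' : ℝ} (hs : 0 ≤ s) (ht : 0 ≤ t) (hs' : 0 ≤ s')
    (ht' : 0 ≤ t') (hv : s • a - t • a' ≠ 0) (h : s • a - t • a' = s' • b - t' • b')
    (i1 : Ind a b) (i2 : Ind a' b') (n1 : b ∉ OC a b') (n2 : a ∉ OC a' b) (n3 : a' ∉ OC a b')
    (n4 : b' ∉ OC a' b) (n5 : ∀ s t : ℝ, s • a + t • b' = 0 → s = 0 ∧ t = 0)
    (n6 : ∀ s t : ℝ, s • a' + t • b = 0 → s = 0 ∧ t = 0) :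
    ∃ x, x ∈ OC a b' ∧ x ∈ OC a' b := by
  have h1 : s • a + t' • b' = t • a' + s' • b := by linear_combination (norm := module) h
  have hv' : s' • b - t' • b' ≠ 0 := h ▸ hv
  have hs0 : 0 < s := by
    refine hs.lt_of_ne' ?_
    rintro rfl
    have ht0 : 0 < t := ht.lt_of_ne' fun h0 => hv (by simp [h0])
    rw [zero_smul, zero_add] at h1
    rcases hs'.lt_or_eq with h2 | rfl
    · rcases ht'.lt_or_eq with h3 | rfl
      · exact n4 (OC.of_smul h3 ht0 h2 h1)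
      · exact ht0.ne' (n6 _ _ (by rw [← h1, zero_smul])).1
    · exact ht0.ne' (i2 t t' (by rw [h1, zero_smul, add_zero])).1
  have ht0 : 0 < t := by
    refine ht.lt_of_ne' ?_
    rintro rfl
    rw [zero_smul, zero_add] at h1
    rcases ht'.lt_or_eq with h2 | rfl
    · rcases hs'.lt_or_eq with h3 | rfl
      · exact n1 (OC.of_smul h3 hs0 h2 h1.symm)
      · exact hs0.ne' (n5 _ _ (by rw [h1, zero_smul])).1
    · exact hs0.ne' (i1 s s' (by rw [← h1, zero_smul, add_zero])).1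
  have hs0' : 0 < s' := by
    refine hs'.lt_of_ne' ?_
    rintro rfl
    rw [zero_smul, add_zero] at h1
    exact n3 (OC.of_smul ht0 hs0 (ht'.lt_of_ne' fun h0 => hv' (by simp [h0])) h1.symm)
  have ht0' : 0 < t' := by
    refine ht'.lt_of_ne' ?_
    rintro rfl
    rw [zero_smul, add_zero] at h1
    exact n2 (OC.of_smul hs0 ht0 hs0' h1)
  exact ⟨_, ⟨s, t', hs0, ht0', rfl⟩, t, s', ht0, hs0', h1⟩

theorem Ind.add {u v : E} (h : Ind u v) (s t : ℝ) (h1 : s • u + t • v = 0) : s = 0 ∧ t = 0 := by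
  have := h s (-t) (by rw [neg_smul]; exact eq_neg_of_add_eq_zero_left h1)
  exact ⟨this.1, neg_eq_zero.1 this.2⟩

theorem Meet.cross {a a' b b' : E} (h : Meet a a' b b') (i1 : Ind a b) (i2 : Ind a b')
    (i3 : Ind a' b) (i4 : Ind a' b') (n : ∀ u ∈ ({a, a'} : Set E), ∀ v ∈ ({b, b'} : Set E),
      ∀ w ∈ ({a, a', b, b'} : Set E), w ∉ OC u v) :
    ∃ x, (x ∈ OC a b ∧ x ∈ OC a' b') ∨ (x ∈ OC a b' ∧ x ∈ OC a' b) := by
  obtain ⟨v, hv, h1, h2⟩ := h
  obtain ⟨s, t, hs, ht, h3⟩ := h1.pos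
  obtain ⟨s', t', hs', ht', h4⟩ := h2.pos
  have hv' : s • a - t • a' ≠ 0 := by
    rcases h3 with h3 | h3
    · rwa [← h3]
    · rw [← neg_sub, ← h3]; exact neg_ne_zero.2 hv
  have h5 : s • a - t • a' = s' • b - t' • b' ∨ s • a - t • a' = t' • b' - s' • b := by
    rcases h3 with h3 | h3 <;> rcases h4 with h4 | h4
    · exact Or.inl (h3.symm.trans h4)
    · exact Or.inr (h3.symm.trans h4)
    · exact Or.inr (by rw [← neg_sub, ← h3, h4, neg_sub])
    · exact Or.inl (by rw [← neg_sub, ← h3, h4, neg_sub])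
  rcases h5 with h5 | h5
  · obtain ⟨x, hx⟩ := cross_of_eq hs ht hs' ht' hv' h5 i1 i4 (n _ (by simp) _ (by simp) _ (by simp))
      (n _ (by simp) _ (by simp) _ (by simp)) (n _ (by simp) _ (by simp) _ (by simp))
      (n _ (by simp) _ (by simp) _ (by simp)) i2.add i3.add
    exact ⟨x, Or.inr hx⟩
  · obtain ⟨x, hx⟩ := cross_of_eq hs ht ht' hs' hv' h5 i2 i3 (n _ (by simp) _ (by simp) _ (by simp))
      (n _ (by simp) _ (by simp) _ (by simp)) (n _ (by simp) _ (by simp) _ (by simp))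
      (n _ (by simp) _ (by simp) _ (by simp)) i1.add i4.add
    exact ⟨x, Or.inl hx⟩

open Classical in
theorem cone_bound {m n : ℕ} (hE : Module.finrank ℝ E = 3) (a : Fin m → E) (b : Fin n → E)
    (h0 : ∀ u, Sum.elim a b u ≠ 0)
    (hi : ∀ u v, u ≠ v → Ind (Sum.elim a b u) (Sum.elim a b v))
    (hn : ∀ i j u, Sum.elim a b u ∉ OC (a i) (b j))
    (hs : ∀ i i' j j', i ≠ i' → j ≠ j' → ¬ (Sp (a i) (a i') (b j) ∧ Sp (a i) (a i') (b j')))
    {X : Type} (arc : Fin m × Fin n → Set X) (π : E → X)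
    (hπ : ∀ i j, ∀ x ∈ OC (a i) (b j), π x ∈ arc (i, j))
    (h3 : ∀ x e f g, x ∈ arc e → x ∈ arc f → x ∈ arc g → e = f ∨ e = g ∨ f = g) :
    ((dd m * dd n : ℕ) : ℕ∞) ≤ (crossPts arc).encard := by
  have hne : ∀ {k} {e : Fin k × Fin k}, e ∈ PR k → e.1 ≠ e.2 := fun h => (mem_filter.1 h).2.ne
  have hab : ∀ i j, Ind (a i) (b j) := fun i j => hi (Sum.inl i) (Sum.inr j) Sum.inl_ne_inr
  refine le_trans (Nat.cast_le.2 (main3 hE a b (fun i => h0 (Sum.inl i)) (fun j => h0 (Sum.inr j))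
    (fun i i' h => hi (Sum.inl i) (Sum.inl i') (by simpa using h))
    (fun i i' h => hi (Sum.inr i) (Sum.inr i') (by simpa using h))
    fun e he f hf => hs _ _ _ _ (hne he) (hne hf))) (count_pts arc h3 _ fun e _ f _ h => ?_)
  obtain ⟨x, hx⟩ := h.cross (hab _ _) (hab _ _) (hab _ _) (hab _ _) (by
    rintro u hu v hv w hw
    obtain ⟨i, rfl⟩ : ∃ i, u = a i := hu.elim (⟨_, ·⟩) (⟨_, ·⟩)
    obtain ⟨j, rfl⟩ : ∃ j, v = b j := hv.elim (⟨_, ·⟩) (⟨_, ·⟩)
    rcases hw with rfl | rfl | rfl | rfl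
    exacts [hn i j (Sum.inl _), hn i j (Sum.inl _), hn i j (Sum.inr _), hn i j (Sum.inr _)])
  exact ⟨π x, hx.imp (fun h => ⟨hπ _ _ _ h.1, hπ _ _ _ h.2⟩) fun h => ⟨hπ _ _ _ h.1, hπ _ _ _ h.2⟩⟩

end

theorem rect {P : Type} [AddCommGroup P] [Module ℝ P] (hP : Module.finrank ℝ P = 2) {m n : ℕ}
    (A : Fin m → P) (B : Fin n → P) (hi : Function.Injective (Sum.elim A B))
    (hn : ∀ i j v, Sum.elim A B v ∉ openSegment ℝ (A i) (B j))
    (h3 : ∀ x (e f g : Fin m × Fin n), x ∈ openSegment ℝ (A e.1) (B e.2) →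
      x ∈ openSegment ℝ (A f.1) (B f.2) → x ∈ openSegment ℝ (A g.1) (B g.2) →
      e = f ∨ e = g ∨ f = g) :
    ((dd m * dd n : ℕ) : ℕ∞) ≤
      (crossPts fun e : Fin m × Fin n => openSegment ℝ (A e.1) (B e.2)).encard := by
  have : FiniteDimensional ℝ P := Module.finite_of_finrank_pos (by omega)
  have e1 : ∀ u, Sum.elim (fun i => (A i, (1 : ℝ))) (fun j => (B j, (1 : ℝ))) u =
      (Sum.elim A B u, 1) := by rintro (i | j) <;> rfl
  have hπ : ∀ u v : P, ∀ x ∈ OC (u, (1 : ℝ)) (v, 1), x.2⁻¹ • x.1 ∈ openSegment ℝ u v := by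
    rintro u v _ ⟨s, t, hs, ht, rfl⟩
    refine ⟨(s + t)⁻¹ * s, (s + t)⁻¹ * t, by positivity, by positivity, by field_simp, ?_⟩
    simp [mul_smul]
  refine cone_bound (E := P × ℝ) (by rw [Module.finrank_prod, hP, Module.finrank_self])
    (fun i => (A i, 1)) (fun j => (B j, 1)) (fun u => by rw [e1]; simp) (fun u v huv s t h => ?_)
    (fun i j u h => hn i j u (by rw [e1] at h; simpa using hπ _ _ _ h))
    (fun i i' j j' hii hjj h => ?_) _ (fun x => x.2⁻¹ • x.1) (fun i j => hπ _ _) h3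
  · rw [e1, e1] at h
    have h1 : s = t := by simpa using congrArg Prod.snd h
    subst h1
    have h2 : s • Sum.elim A B u = s • Sum.elim A B v := congrArg Prod.fst h
    by_cases h4 : s = 0
    · exact ⟨h4, h4⟩
    · exact absurd (hi (smul_right_injective P h4 h2)) huv
  · have k : ∀ j, Sp (A i, (1 : ℝ)) (A i', 1) (B j, 1) →
        ∃ t : ℝ, 0 < t ∧ B j = (1 - t) • A i + t • A i' := by
      intro j h
      obtain ⟨s, t, h⟩ := Submodule.mem_span_pair.1 h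
      have h1 : s + t = 1 := by simpa using congrArg Prod.snd h
      have h2 : s • A i + t • A i' = B j := congrArg Prod.fst h
      rw [show s = 1 - t by linarith] at h2
      refine ⟨t, ?_, h2.symm⟩
      by_contra h4
      rcases (not_lt.1 h4).lt_or_eq with h5 | rfl
      · have h6 : 0 < 1 - t := by linarith
        refine hn i' j (Sum.inl i) ⟨(1 - t)⁻¹ * -t, (1 - t)⁻¹, mul_pos (inv_pos.2 h6) (by linarith),
          inv_pos.2 h6, by field_simp; ring, ?_⟩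
        rw [← h2, Sum.elim_inl, mul_smul, ← smul_add, inv_smul_eq_iff₀ h6.ne']
        module
      · exact Sum.inl_ne_inr (hi (show Sum.elim A B (Sum.inl i) = Sum.elim A B (Sum.inr j) by
          simpa using h2))
    have k2 : ∀ j j' (t t' : ℝ), 0 < t → t < t' → B j = (1 - t) • A i + t • A i' →
        B j' = (1 - t') • A i + t' • A i' → False := by
      intro j j' t t' h1 h2 h4 h5
      have h6 : 0 < t' := h1.trans h2
      refine hn i j' (Sum.inr j) ⟨t'⁻¹ * (t' - t), t'⁻¹ * t, mul_pos (inv_pos.2 h6) (by linarith),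
        by positivity, by field_simp; ring, ?_⟩
      rw [Sum.elim_inr, h4, h5, mul_smul, mul_smul, ← smul_add, inv_smul_eq_iff₀ h6.ne']
      module
    obtain ⟨t, h1, h2⟩ := k j h.1
    obtain ⟨t', h1', h2'⟩ := k j' h.2
    rcases lt_trichotomy t t' with h4 | rfl | h4
    · exact k2 j j' t t' h1 h4 h2 h2'
    · exact hjj (Sum.inr_injective (hi (show Sum.elim A B (Sum.inr j) = Sum.elim A B (Sum.inr j')
        from h2.trans h2'.symm)))
    · exact k2 j' j t' t h1' h4 h2' h2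

theorem sph {m n : ℕ} (A : Fin m → EuclideanSpace ℝ (Fin 3)) (B : Fin n → EuclideanSpace ℝ (Fin 3))
    (hg : ∀ u v w, u ≠ v → u ≠ w → v ≠ w →
      LinearIndependent ℝ ![Sum.elim A B u, Sum.elim A B v, Sum.elim A B w])
    (h3 : ∀ x (e f g : Fin m × Fin n), x ∈ geoArc (A e.1) (B e.2) →
      x ∈ geoArc (A f.1) (B f.2) → x ∈ geoArc (A g.1) (B g.2) → e = f ∨ e = g ∨ f = g) :
    ((dd m * dd n : ℕ) : ℕ∞) ≤
      (crossPts fun e : Fin m × Fin n => geoArc (A e.1) (B e.2)).encard := by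
  rcases lt_or_ge m 3 with hm | hm
  · have : dd m = 0 := by interval_cases m <;> rfl
    simp [this]
  have hg' : ∀ u v w, u ≠ v → u ≠ w → v ≠ w → ∀ r s t : ℝ, r • Sum.elim A B u +
      s • Sum.elim A B v + t • Sum.elim A B w = 0 → r = 0 ∧ s = 0 ∧ t = 0 := by
    intro u v w h1 h2 h4 r s t h
    have := Fintype.linearIndependent_iff.1 (hg u v w h1 h2 h4) ![r, s, t]
      (by simpa [Fin.sum_univ_three] using h)
    exact ⟨this 0, this 1, this 2⟩
  have third : ∀ u v : Fin m ⊕ Fin n, ∃ w, u ≠ w ∧ v ≠ w := by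
    intro u v
    by_contra hc
    have : (univ : Finset (Fin m ⊕ Fin n)) ⊆ {u, v} := fun w _ => by
      by_contra h
      simp only [mem_insert, mem_singleton, not_or] at h
      exact hc ⟨w, Ne.symm h.1, Ne.symm h.2⟩
    have h1 := (card_le_card this).trans card_le_two
    simp only [card_univ, Fintype.card_sum, Fintype.card_fin] at h1
    omega
  have hi : ∀ u v, u ≠ v → Ind (Sum.elim A B u) (Sum.elim A B v) := by
    intro u v huv s t h
    obtain ⟨w, h1, h2⟩ := third u v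
    have := hg' u v w huv h1 h2 s (-t) 0 (by rw [h]; module)
    exact ⟨this.1, neg_eq_zero.1 this.2.1⟩
  have hab : ∀ i j, Ind (A i) (B j) := fun i j => hi (Sum.inl i) (Sum.inr j) Sum.inl_ne_inr
  refine cone_bound (by simp) A B (fun u h => ?_) hi (fun i j u h => ?_)
    (fun i i' j j' hii _ h => ?_) _ (fun x => ‖x‖⁻¹ • x) (fun i j x hx => ?_) h3
  · obtain ⟨w, h1, -⟩ := third u u
    exact one_ne_zero (hi u w h1 1 0 (by rw [h]; simp)).1
  · obtain ⟨s, t, hs, ht, h⟩ := h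
    by_cases h1 : u = Sum.inl i
    · subst h1
      exact ht.ne' ((hab i j).add (s - 1) t (by
        rw [Sum.elim_inl] at h; linear_combination (norm := module) -h)).2
    by_cases h2 : u = Sum.inr j
    · subst h2
      exact hs.ne' ((hab i j).add s (t - 1) (by
        rw [Sum.elim_inr] at h; linear_combination (norm := module) -h)).1
    exact hs.ne' (hg' (Sum.inl i) (Sum.inr j) u Sum.inl_ne_inr (Ne.symm h1) (Ne.symm h2) s t (-1)
      (by rw [h, Sum.elim_inl, Sum.elim_inr]; module)).1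
  · obtain ⟨s, t, h⟩ := Submodule.mem_span_pair.1 h.1
    have := (hg' (Sum.inl i) (Sum.inl i') (Sum.inr j) (by simpa using hii) Sum.inl_ne_inr
      Sum.inl_ne_inr s t (-1) (by simp [h])).2.2
    norm_num at this
  · obtain ⟨s, t, hs, ht, h⟩ := hx
    have h0 : x ≠ 0 := fun h0 => hs.ne' ((hab i j).add s t (by rw [← h, h0])).1
    have h1 : 0 < ‖x‖ := norm_pos_iff.2 h0
    refine ⟨by rw [norm_smul, norm_inv, norm_norm, inv_mul_cancel₀ h1.ne'],
      ‖x‖⁻¹ * s, ‖x‖⁻¹ * t, by positivity, by positivity, ?_⟩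
    rw [mul_smul, mul_smul, ← smul_add, ← h]

end Vale.Agent.P040
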