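import Vale.Agent.P040.Chain

/-! Long segments in a hemisphere. -/

namespace Vale.Agent.P040

open Set

section

variable {E : Type} [AddCommGroup E] [Module ℝ E]

/-- the long segment between `a` and `a'` (both lifts, as a cone) -/
def InW (a a' v : E) : Prop := ∃ s t : ℝ, 0 ≤ s * t ∧ v = s • a - t • a'

def Meet (a a' b b' : E) : Prop := ∃ v, v ≠ 0 ∧ InW a a' v ∧ InW b b' v

def Ind (a a' : E) : Prop := ∀ s t : ℝ, s • a = t • a' → s = 0 ∧ t = 0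

def Sp (a a' v : E) : Prop := v ∈ Submodule.span ℝ ({a, a'} : Set E)

theorem InW.smul {a a' v : E} (h : InW a a' v) (c : ℝ) : InW a a' (c • v) := by
  obtain ⟨s, t, h1, rfl⟩ := h
  refine ⟨c * s, c * t, by nlinarith [mul_nonneg (mul_self_nonneg c) h1], ?_⟩
  rw [smul_sub, smul_smul, smul_smul]

theorem InW.neg {a a' v : E} (h : InW a a' v) : InW a a' (-v) := by
  simpa using h.smul (-1)

theorem InW.sp {a a' v : E} (h : InW a a' v) : Sp a a' v := by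
  obtain ⟨s, t, -, rfl⟩ := h
  exact Submodule.mem_span_pair.2 ⟨s, -t, by rw [neg_smul, sub_eq_add_neg]⟩

theorem sp_of_two {a a' x y : E} {α β γ δ : ℝ} (h1 : Sp a a' (α • x + β • y))
    (h2 : Sp a a' (γ • x + δ • y)) (hd : α * δ - β * γ ≠ 0) : Sp a a' x ∧ Sp a a' y := by
  constructor
  · have : x = (α * δ - β * γ)⁻¹ • (δ • (α • x + β • y) - β • (γ • x + δ • y)) := by
      rw [eq_inv_smul_iff₀ hd]; module
    rw [Sp, this]
    exact Submodule.smul_mem _ _ (Submodule.sub_mem _ (Submodule.smul_mem _ _ h1)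
      (Submodule.smul_mem _ _ h2))
  · have : y = (α * δ - β * γ)⁻¹ • (α • (γ • x + δ • y) - γ • (α • x + β • y)) := by
      rw [eq_inv_smul_iff₀ hd]; module
    rw [Sp, this]
    exact Submodule.smul_mem _ _ (Submodule.sub_mem _ (Submodule.smul_mem _ _ h2)
      (Submodule.smul_mem _ _ h1))

end

abbrev V : Type := ℂ × ℝ

def HH (v : V) : Prop := 0 ≤ v.2 ∧ v ≠ 0

noncomputable def pj (v : V) : ℂ := (‖v.1‖ + v.2)⁻¹ • v.1

noncomputable def lf (z : ℂ) : V := (z, 1 - ‖z‖)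

def WD (a a' : V) : Set ℂ := {z | InW a a' (lf z)}

theorem HH.pos {v : V} (h : HH v) : 0 < ‖v.1‖ + v.2 := by
  rcases h.1.lt_or_eq with h1 | h1
  · positivity
  · have : v.1 ≠ 0 := fun h2 => h.2 (Prod.ext h2 h1.symm)
    rw [← h1, add_zero]; positivity

theorem HH.norm_pj {v : V} (h : HH v) : ‖pj v‖ = (‖v.1‖ + v.2)⁻¹ * ‖v.1‖ := by
  rw [pj, norm_smul, Real.norm_of_nonneg (inv_pos.2 h.pos).le]

theorem HH.norm_le {v : V} (h : HH v) : ‖pj v‖ ≤ 1 := by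
  rw [h.norm_pj, inv_mul_le_one₀ h.pos]; linarith [h.1]

theorem HH.lf_pj {v : V} (h : HH v) : lf (pj v) = (‖v.1‖ + v.2)⁻¹ • v := by
  refine Prod.ext rfl ?_
  have := h.pos.ne'
  change 1 - ‖pj v‖ = (‖v.1‖ + v.2)⁻¹ * v.2
  rw [h.norm_pj]; field_simp; ring

theorem HH.mem_WD {v a a' : V} (h : HH v) : pj v ∈ WD a a' ↔ InW a a' v := by
  rw [WD, mem_ofPred_eq, h.lf_pj]
  refine ⟨fun h1 => ?_, fun h1 => h1.smul _⟩
  have := h1.smul (‖v.1‖ + v.2)
  rwa [smul_smul, mul_inv_cancel₀ h.pos.ne', one_smul] at this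

theorem lf_ec (θ : ℝ) : lf (ec θ) = (ec θ, 0) := by rw [lf, norm_ec, sub_self]

theorem pj_ec (θ : ℝ) : pj (ec θ, 0) = ec θ := by simp [pj, norm_ec]

theorem HH_ec (θ : ℝ) : HH (ec θ, 0) :=
  ⟨le_rfl, fun h => Complex.exp_ne_zero _ (congrArg Prod.fst h)⟩

theorem pj_bd {q : V} (h0 : q.2 = 0) (h : q ≠ 0) :
    ∃ φ, pj q = ec φ ∧ pj (-q) = ec (φ + Real.pi) := by
  have h1 : q.1 ≠ 0 := fun h2 => h (Prod.ext h2 h0)
  have h2 : pj q = ec (Complex.arg q.1) := by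
    have h3 : (‖q.1‖ : ℂ) ≠ 0 := by simpa using h1
    rw [pj, h0, add_zero, Complex.real_smul, Complex.ofReal_inv, inv_mul_eq_iff_eq_mul₀ h3]
    exact (Complex.norm_mul_exp_arg_mul_I q.1).symm
  refine ⟨_, h2, ?_⟩
  rw [ec_pi, ← h2]
  simp [pj, h0]

theorem HH_seg {x y : V} (hx : 0 < x.2) (hy : HH y) {t : ℝ} (ht : t ∈ Icc (0 : ℝ) 1) :
    HH ((1 - t) • x + t • y) := by
  have h1 : ((1 - t) • x + t • y).2 = (1 - t) * x.2 + t * y.2 := rfl
  have h2 := mul_nonneg ht.1 hy.1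
  rcases ht.2.lt_or_eq with h | h
  · have h3 : 0 < (1 - t) * x.2 := mul_pos (sub_pos.2 h) hx
    exact ⟨by rw [h1]; linarith, fun h0 => by rw [h0] at h1; change (0 : ℝ) = _ at h1; linarith⟩
  · rw [h]; simpa using hy

theorem HH_seg' {x y : V} (hx : HH x) (hy : 0 < y.2) {t : ℝ} (ht : t ∈ Icc (0 : ℝ) 1) :
    HH ((1 - t) • x + t • y) := by
  have := HH_seg hy hx (t := 1 - t) ⟨by linarith [ht.2], by linarith [ht.1]⟩
  rwa [sub_sub_cancel, add_comm] at this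

theorem HH_pos {x : V} (hx : 0 < x.2) : HH x := ⟨hx.le, fun h => by simp [h] at hx⟩

noncomputable def sg (x y : V) (t : ℝ) : ℂ := pj ((1 - t) • x + t • y)

theorem sg_zero (x y : V) : sg x y 0 = pj x := by simp [sg]
theorem sg_one (x y : V) : sg x y 1 = pj y := by simp [sg]

theorem continuousOn_sg {x y : V} (h : ∀ t ∈ Icc (0 : ℝ) 1, HH ((1 - t) • x + t • y)) :
    ContinuousOn (sg x y) (Icc 0 1) := by
  unfold sg pj
  exact ContinuousOn.smul (ContinuousOn.inv₀ (by fun_prop) fun t ht => (h t ht).pos.ne')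
    (by fun_prop)

theorem joined_sg {x y a a' : V} (h : ∀ t ∈ Icc (0 : ℝ) 1, HH ((1 - t) • x + t • y))
    (hw : ∀ t ∈ Icc (0 : ℝ) 1, InW a a' ((1 - t) • x + t • y)) :
    JoinedIn (WD a a' ∩ {z | ‖z‖ ≤ 1}) (pj x) (pj y) := by
  have := joinedIn_arc zero_le_one (continuousOn_sg h)
  rw [sg_zero, sg_one] at this
  refine this.mono ?_
  rintro z ⟨t, ht, rfl⟩
  exact ⟨(h t ht).mem_WD.2 (hw t ht), (h t ht).norm_le⟩

variable {m : ℕ} {a : Fin m → V}

/-- the walls -/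
def WA (a : Fin m → V) (e : Fin m × Fin m) : Set ℂ := WD (a e.1) (a e.2)

theorem seg_ch {x y : V} (h : ∀ t ∈ Icc (0 : ℝ) 1, HH ((1 - t) • x + t • y))
    (hs : ∀ e ∈ PR m, ¬ (Sp (a e.1) (a e.2) x ∧ Sp (a e.1) (a e.2) y)) :
    ∃ S, Ch (PR m) (WA a) (pj x) (pj y) (hits (PR m) (WA a) (sg x y) 0 1).card S := by
  have := Ch.arc (P := PR m) (W := WA a) (sg x y) 0 1 zero_le_one (continuousOn_sg h)
    (fun t ht => (h t ht).norm_le) fun e he t ht t' ht' h1 h2 => by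
      by_contra hne
      refine hs e he (sp_of_two ((h t (Ico_subset_Icc_self ht)).mem_WD.1 h1).sp
        ((h t' (Ico_subset_Icc_self ht')).mem_WD.1 h2).sp fun h0 => hne (by linarith))
  rw [sg_zero, sg_one] at this
  exact ⟨_, this⟩

theorem mem_hits_sg {x y : V} (h : ∀ t ∈ Icc (0 : ℝ) 1, HH ((1 - t) • x + t • y))
    {e : Fin m × Fin m} (he : e ∈ hits (PR m) (WA a) (sg x y) 0 1) :
    e ∈ PR m ∧ ∃ t : ℝ, 0 ≤ t ∧ t < 1 ∧ (1 - t) • x + t • y ≠ 0 ∧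
      InW (a e.1) (a e.2) ((1 - t) • x + t • y) := by
  obtain ⟨h1, t, ht, h2⟩ := mem_hits.1 he
  exact ⟨h1, t, ht.1, ht.2, (h t (Ico_subset_Icc_self ht)).2,
    (h t (Ico_subset_Icc_self ht)).mem_WD.1 h2⟩

theorem bd_uniq {u u' : V} (hu : u'.2 ≠ 0) {t t' : ℝ} (h1 : Sp u u' (ec t, 0))
    (h2 : Sp u u' (ec t', 0)) (h3 : |t - t'| < Real.pi) : t = t' := by
  obtain ⟨s, r, k1⟩ := Submodule.mem_span_pair.1 h1
  obtain ⟨s', r', k2⟩ := Submodule.mem_span_pair.1 h2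
  have a1 : (s : ℂ) * u.1 + r * u'.1 = ec t := congrArg Prod.fst k1
  have a2 : (s' : ℂ) * u.1 + r' * u'.1 = ec t' := congrArg Prod.fst k2
  have b1 : s * u.2 + r * u'.2 = 0 := congrArg Prod.snd k1
  have b2 : s' * u.2 + r' * u'.2 = 0 := congrArg Prod.snd k2
  have hs' : s' ≠ 0 := by
    rintro rfl
    have : r' = 0 := by simpa [hu] using b2
    rw [this] at a2
    exact Complex.exp_ne_zero _ (show ec t' = 0 by simpa using a2.symm)
  have c1 : s' * r = s * r' := by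
    have : (s' * r - s * r') * u'.2 = 0 := by linear_combination s' * b1 - s * b2
    have := (mul_eq_zero.1 this).resolve_right hu
    linarith
  have c2 : (s' : ℂ) * r = s * r' := by exact_mod_cast c1
  have c3 : (s' : ℂ) * ec (t - t') = s := by
    have e1 : ec t' * ec (-t') = 1 := by rw [ec_mul, add_neg_cancel, ec_zero]
    rw [sub_eq_add_neg, ← ec_mul]
    linear_combination (-s' * ec (-t')) * a1 + (s * ec (-t')) * a2 + (u'.1 * ec (-t')) * c2 +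
      s * e1
  have c4 := congrArg Complex.im c3
  simp only [Complex.mul_im, Complex.ofReal_re, Complex.ofReal_im, ec_im, zero_mul, add_zero,
    mul_eq_zero, hs', false_or] at c4
  have := (Real.sin_eq_zero_iff_of_lt_of_lt (abs_lt.1 h3).1 (abs_lt.1 h3).2).1 c4
  linarith

theorem ec_mem_WA {e : Fin m × Fin m} {t : ℝ} :
    ec t ∈ WA a e ↔ InW (a e.1) (a e.2) (ec t, 0) := by
  rw [WA, WD, mem_ofPred_eq, lf_ec]

theorem bd_same {u u' : V} (hu : u.2 ≠ 0) (hu' : u'.2 ≠ 0) {t : ℝ} (h : InW u u' (ec t, 0)) :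
    decide (0 < u.2) = decide (0 < u'.2) := by
  obtain ⟨s, r, h1, h2⟩ := h
  have b1 : 0 = s * u.2 - r * u'.2 := congrArg Prod.snd h2
  have hr : r ≠ 0 := by
    rintro rfl
    have : s = 0 := by simpa [hu] using b1
    rw [this] at h2
    exact (HH_ec t).2 (by simpa using h2)
  have h3 : 0 < (r * u'.2) * (r * u'.2) := mul_self_pos.2 (mul_ne_zero hr hu')
  have h4 : (s * r) * (u.2 * u'.2) = (r * u'.2) * (r * u'.2) := by
    linear_combination (-(r * u'.2)) * b1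
  have h5 : 0 < u.2 * u'.2 := by
    by_contra h6
    nlinarith [mul_nonneg h1 (neg_nonneg.2 (not_lt.1 h6))]
  rw [decide_eq_decide]
  exact ⟨fun h => (mul_pos_iff_of_pos_left h).1 h5, fun h => (mul_pos_iff_of_pos_right h).1 h5⟩

theorem win (ha : ∀ i, (a i).2 ≠ 0) (I : Finset ℕ) (H : ℕ → Finset (Fin m × Fin m))
    (J : ℕ → Set ℝ) (hH : ∀ l ∈ I, ∀ e ∈ H l, e ∈ PR m ∧ ∃ t ∈ J l, ec t ∈ WA a e)
    (hJ : ∀ l ∈ I, ∀ l' ∈ I, ∀ t ∈ J l, ∀ t' ∈ J l', |t - t'| < Real.pi ∧ (t = t' → l = l')) :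
    ∑ l ∈ I, (H l).card ≤ mono fun i => decide (0 < (a i).2) := by
  rw [← Finset.card_biUnion]
  · refine Finset.card_le_card fun e he => ?_
    obtain ⟨l, hl, he⟩ := Finset.mem_biUnion.1 he
    obtain ⟨h1, t, -, h2⟩ := hH l hl e he
    exact Finset.mem_filter.2 ⟨h1, bd_same (ha _) (ha _) (ec_mem_WA.1 h2)⟩
  · intro l hl l' hl' hne
    rw [Function.onFun, Finset.disjoint_left]
    intro e he he'
    obtain ⟨-, t, ht, h2⟩ := hH l hl e he
    obtain ⟨-, t', ht', h2'⟩ := hH l' hl' e he'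
    obtain ⟨k1, k2⟩ := hJ l hl l' hl' t ht t' ht'
    exact hne (k2 (bd_uniq (ha _) (ec_mem_WA.1 h2).sp (ec_mem_WA.1 h2').sp k1))

theorem fwd_ch (ha : ∀ i, (a i).2 ≠ 0) {θ θ' : ℝ} (h : θ ≤ θ') (h' : θ' ≤ θ + Real.pi) :
    ∃ S, Ch (PR m) (WA a) (ec θ) (ec θ') (hits (PR m) (WA a) ec θ θ').card S :=
  ⟨_, Ch.arc ec θ θ' h continuous_ec.continuousOn (fun t _ => (norm_ec t).le)
    fun e _ t ht t' ht' h1 h2 => bd_uniq (ha _) (ec_mem_WA.1 h1).sp (ec_mem_WA.1 h2).sp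
      (abs_lt.2 ⟨by linarith [ht.1, ht'.2], by linarith [ht.2, ht'.1]⟩)⟩

theorem bwd_ch (ha : ∀ i, (a i).2 ≠ 0) {θ θ' : ℝ} (h : θ ≤ θ') (h' : θ' ≤ θ + Real.pi) :
    ∃ S, Ch (PR m) (WA a) (ec θ') (ec θ)
      (hits (PR m) (WA a) (fun t => ec (-t)) (-θ') (-θ)).card S := by
  have := Ch.arc (P := PR m) (W := WA a) (fun t => ec (-t)) (-θ') (-θ) (by linarith)
    (continuous_ec.comp continuous_neg).continuousOn (fun t _ => (norm_ec _).le)
    fun e _ t ht t' ht' h1 h2 => neg_injective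
      (bd_uniq (ha _) (ec_mem_WA.1 h1).sp (ec_mem_WA.1 h2).sp
      (abs_lt.2 ⟨by linarith [ht.2, ht'.1], by linarith [ht.1, ht'.2]⟩))
  simp only [neg_neg] at this
  exact ⟨_, this⟩

theorem two {x y : V} (hx : 0 < x.2) (hy : 0 < y.2) (hq : y.2 • x - x.2 • y ≠ 0)
    (hs : ∀ e ∈ PR m, ¬ (Sp (a e.1) (a e.2) x ∧ Sp (a e.1) (a e.2) y))
    (M : Finset (Fin m × Fin m)) (hM : ∀ e ∈ PR m, ∀ s t : ℝ, 0 ≤ s → 0 ≤ t →
      s • x - t • y ≠ 0 → InW (a e.1) (a e.2) (s • x - t • y) → e ∈ M) :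
    (∃ c S, Ch (PR m) (WA a) (pj x) (pj (y.2 • x - x.2 • y)) c S) ∧
    ds (PR m) (WA a) (pj x) (pj (y.2 • x - x.2 • y)) +
      ds (PR m) (WA a) (pj (-(y.2 • x - x.2 • y))) (pj y) ≤ M.card := by
  have q0 : (y.2 • x - x.2 • y).2 = 0 := by
    change y.2 * x.2 - x.2 * y.2 = 0; ring
  have H1 : ∀ t ∈ Icc (0 : ℝ) 1, HH ((1 - t) • x + t • (y.2 • x - x.2 • y)) :=
    fun t ht => HH_seg hx ⟨q0.ge, hq⟩ ht
  have H2 : ∀ t ∈ Icc (0 : ℝ) 1, HH ((1 - t) • (-(y.2 • x - x.2 • y)) + t • y) :=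
    fun t ht => HH_seg' ⟨by rw [Prod.snd_neg, q0, neg_zero], neg_ne_zero.2 hq⟩ hy ht
  have e1 : ∀ t : ℝ, (1 - t) • x + t • (y.2 • x - x.2 • y) =
      (1 - t + t * y.2) • x + (-(t * x.2)) • y := fun t => by module
  have e2 : ∀ t : ℝ, (1 - t) • (-(y.2 • x - x.2 • y)) + t • y =
      (-((1 - t) * y.2)) • x + ((1 - t) * x.2 + t) • y := fun t => by module
  obtain ⟨S1, c1⟩ := seg_ch (a := a) H1 fun e he h => hs e he
    (sp_of_two (α := 1) (β := 0) (γ := y.2) (δ := -x.2) (by simpa using h.1)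
      (by simpa [sub_eq_add_neg] using h.2) (by simpa using hx.ne'))
  obtain ⟨S2, c2⟩ := seg_ch (a := a) H2 fun e he h => hs e he
    (sp_of_two (α := -y.2) (β := x.2) (γ := 0) (δ := 1)
      (by have := h.1; rwa [show -(y.2 • x - x.2 • y) = (-y.2) • x + x.2 • y by module] at this)
      (by simpa using h.2) (by simpa using hy.ne'))
  refine ⟨⟨_, _, c1⟩, (add_le_add c1.ds_le c2.ds_le).trans ?_⟩
  rw [← Finset.card_union_of_disjoint]
  · refine Finset.card_le_card fun e he => ?_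
    rcases Finset.mem_union.1 he with he | he
    · obtain ⟨h1, t, t0, t1, h2, h3⟩ := mem_hits_sg H1 he
      rw [e1, neg_smul, ← sub_eq_add_neg] at h2 h3
      exact hM e h1 _ _ (by nlinarith) (by positivity) h2 h3
    · obtain ⟨h1, t, t0, t1, h2, h3⟩ := mem_hits_sg H2 he
      have e3 : -((1 - t) • (-(y.2 • x - x.2 • y)) + t • y) =
          ((1 - t) * y.2) • x - ((1 - t) * x.2 + t) • y := by module
      have h4 := h3.neg
      have h5 := neg_ne_zero.2 h2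
      rw [e3] at h4 h5
      exact hM e h1 _ _ (by nlinarith) (by nlinarith) h5 h4
  · rw [Finset.disjoint_left]
    intro e he he'
    obtain ⟨h1, t, t0, t1, -, h3⟩ := mem_hits_sg H1 he
    obtain ⟨-, t', t0', t1', -, h3'⟩ := mem_hits_sg H2 he'
    rw [e1] at h3
    rw [e2] at h3'
    refine hs e h1 (sp_of_two h3.sp h3'.sp (ne_of_gt ?_))
    have k1 : 0 < (1 - t) * (1 - t') * x.2 := by
      have := sub_pos.2 t1; have := sub_pos.2 t1'; positivity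
    have k2 : 0 ≤ (1 - t) * t' := mul_nonneg (by linarith) t0'
    have k3 : 0 ≤ t * t' * y.2 := by positivity
    nlinarith

end Vale.Agent.P040
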