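import Vale.Agent.P040.Core

/-! Choice of a halving plane. -/

namespace Vale.Agent.P040

open Finset

theorem nat_ivt (g : ℕ → ℕ) (h : ∀ k, g (k + 1) ≤ g k + 1 ∧ g k ≤ g (k + 1) + 1) (y N : ℕ)
    (hy : (g 0 ≤ y ∧ y ≤ g N) ∨ (g N ≤ y ∧ y ≤ g 0)) : ∃ k, g k = y := by
  induction N with
  | zero => exact ⟨0, by omega⟩
  | succ N ih =>
    by_cases h1 : g (N + 1) = y
    · exact ⟨_, h1⟩
    · have := h N
      exact ih (by omega)

theorem exists_rank {m : ℕ} (ε : Fin m → Bool) (σ : Fin m → Fin m) (hσ : Function.Injective σ) :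
    ∃ k, (univ.filter fun i => xor (decide ((σ i : ℕ) < k)) (ε i) = true).card = m / 2 := by
  refine nat_ivt _ (fun k => ?_) _ m ?_
  · have h1 : (univ.filter fun i => (σ i : ℕ) = k).card ≤ 1 := card_le_one.2 fun i hi j hj =>
      hσ (Fin.ext ((mem_filter.1 hi).2.trans (mem_filter.1 hj).2.symm))
    have h2 : ∀ i, (σ i : ℕ) ≠ k → decide ((σ i : ℕ) < k + 1) = decide ((σ i : ℕ) < k) :=
      fun i hi => by rw [decide_eq_decide]; omega
    constructor
    · refine le_trans (card_le_card fun i hi => ?_) ((card_union_le _ _).trans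
        (Nat.add_le_add_left h1 _))
      simp only [mem_union, mem_filter, mem_univ, true_and] at hi ⊢
      by_cases h : (σ i : ℕ) = k
      · exact Or.inr h
      · exact Or.inl (h2 i h ▸ hi)
    · refine le_trans (card_le_card fun i hi => ?_) ((card_union_le _ _).trans
        (Nat.add_le_add_left h1 _))
      simp only [mem_union, mem_filter, mem_univ, true_and] at hi ⊢
      by_cases h : (σ i : ℕ) = k
      · exact Or.inr h
      · exact Or.inl ((h2 i h).symm ▸ hi)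
  · have h1 := card_filter_add_card_filter_not (s := (univ : Finset (Fin m))) fun i => ε i = true
    rw [card_univ, Fintype.card_fin] at h1
    have h2 : (univ.filter fun i => xor (decide ((σ i : ℕ) < 0)) (ε i) = true) =
        univ.filter fun i => ε i = true := by simp
    have h3 : (univ.filter fun i => xor (decide ((σ i : ℕ) < m)) (ε i) = true) =
        univ.filter fun i => ¬ ε i = true := by simp
    rw [h2, h3]
    omega

theorem exists_level {m : ℕ} (ε : Fin m → Bool) (ξ : Fin m → ℝ) (hξ : Function.Injective ξ)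
    (F : Set ℝ) (hF : F.Finite) : ∃ c, c ∉ F ∧ (∀ i, ξ i ≠ c) ∧
      (univ.filter fun i => xor (decide (ξ i < c)) (ε i) = true).card = m / 2 := by
  let σ := Tuple.sort ξ
  have hσ : StrictMono (ξ ∘ σ) :=
    (Tuple.monotone_sort ξ).strictMono_of_injective (hξ.comp σ.injective)
  obtain ⟨k, hk⟩ := exists_rank ε σ.symm σ.symm.injective
  have H : ∀ x ∈ ξ '' {i | (σ.symm i : ℕ) < k}, ∀ y ∈ ξ '' {i | ¬ (σ.symm i : ℕ) < k}, x < y := by
    rintro _ ⟨i, hi, rfl⟩ _ ⟨j, hj, rfl⟩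
    have := hσ (show σ.symm i < σ.symm j from
      Fin.lt_def.2 (lt_of_lt_of_le (b := k) hi (not_lt.1 hj)))
    simpa using this
  obtain ⟨c₁, h1, h2⟩ := (Set.toFinite _).exists_between' (Set.toFinite _) H
  obtain ⟨c₂, h3, h4⟩ := (Set.finite_singleton c₁).exists_between' (Set.toFinite _)
    fun x hx y hy => by rw [hx]; exact h2 y hy
  obtain ⟨c, h5, h6⟩ := (Set.Ioo_infinite (h3 c₁ rfl)).exists_notMem_finite hF
  have h7 : ∀ i, (σ.symm i : ℕ) < k → ξ i < c := fun i hi => (h1 _ ⟨i, hi, rfl⟩).trans h5.1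
  have h8 : ∀ i, ¬ (σ.symm i : ℕ) < k → c < ξ i := fun i hi => h5.2.trans (h4 _ ⟨i, hi, rfl⟩)
  refine ⟨c, h6, fun i => ?_, ?_⟩
  · by_cases h : (σ.symm i : ℕ) < k
    · exact (h7 i h).ne
    · exact (h8 i h).ne'
  · rw [← hk]
    refine congrArg card (filter_congr fun i _ => ?_)
    rw [show decide (ξ i < c) = decide ((σ.symm i : ℕ) < k) from decide_eq_decide.2
      ⟨fun h => by_contra fun h' => absurd h (h8 i h').not_gt, h7 i⟩]

variable {E : Type} [AddCommGroup E] [Module ℝ E] {m n : ℕ}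

theorem exists_halving (a : Fin m → E) (b : Fin n → E) (ha : ∀ i, a i ≠ 0) (hb : ∀ j, b j ≠ 0)
    (hia : ∀ i i', i ≠ i' → Ind (a i) (a i')) : ∃ ν : E →ₗ[ℝ] ℝ, (∀ i, ν (a i) ≠ 0) ∧
      (∀ j, ν (b j) ≠ 0) ∧ (univ.filter fun i => decide (0 < ν (a i)) = true).card = m / 2 := by
  obtain ⟨ν₀, h0⟩ := Module.exists_dual_forall_apply_ne_zero (K := ℝ) (Sum.elim a b)
    (by rintro (i | j); exacts [ha i, hb j])
  have ha0 : ∀ i, ν₀ (a i) ≠ 0 := fun i => h0 (Sum.inl i)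
  have hb0 : ∀ j, ν₀ (b j) ≠ 0 := fun j => h0 (Sum.inr j)
  obtain ⟨ν₁, h1⟩ := Module.exists_dual_forall_apply_ne_zero (K := ℝ)
    (fun e : {e : Fin m × Fin m // e.1 ≠ e.2} => ν₀ (a e.1.2) • a e.1.1 - ν₀ (a e.1.1) • a e.1.2)
    fun e h => ha0 _ (hia _ _ e.2 _ _ (sub_eq_zero.1 h)).1
  obtain ⟨c, k1, k2, k3⟩ := exists_level (fun i => decide (0 < ν₀ (a i)))
    (fun i => ν₁ (a i) / ν₀ (a i)) (fun i j h => by
      by_contra hij
      refine h1 ⟨(i, j), hij⟩ ?_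
      rw [div_eq_div_iff (ha0 i) (ha0 j)] at h
      simp only [map_sub, map_smul, smul_eq_mul]
      linarith) (Set.range fun j => ν₁ (b j) / ν₀ (b j)) (Set.finite_range _)
  have e1 : ∀ v, ν₀ v ≠ 0 → (ν₁ - c • ν₀) v = (ν₁ v / ν₀ v - c) * ν₀ v := fun v hv => by
    change ν₁ v - c * ν₀ v = _
    field_simp
  refine ⟨ν₁ - c • ν₀, fun i => ?_, fun j => ?_, ?_⟩
  · rw [e1 _ (ha0 i)]; exact mul_ne_zero (sub_ne_zero.2 (k2 i)) (ha0 i)
  · rw [e1 _ (hb0 j)]; exact mul_ne_zero (sub_ne_zero.2 fun h => k1 ⟨j, h⟩) (hb0 j)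
  · rw [← k3]
    refine congrArg card (filter_congr fun i _ => ?_)
    rw [e1 _ (ha0 i)]
    have h2 := k2 i
    have h3 := ha0 i
    generalize ν₁ (a i) / ν₀ (a i) = x at h2 ⊢
    generalize ν₀ (a i) = y at h3 ⊢
    rcases lt_or_gt_of_ne h2 with h2 | h2 <;> rcases lt_or_gt_of_ne h3 with h3 | h3
    · simp [h2, h3.not_gt, mul_pos_of_neg_of_neg (sub_neg.2 h2) h3]
    · simp [h2, h3, (mul_neg_of_neg_of_pos (sub_neg.2 h2) h3).not_gt]
    · simp [h2.not_gt, h3.not_gt, (mul_neg_of_pos_of_neg (sub_pos.2 h2) h3).not_gt]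
    · simp [h2.not_gt, h3, mul_pos (sub_pos.2 h2) h3]

theorem exists_chart (hE : Module.finrank ℝ E = 3) (ν : E →ₗ[ℝ] ℝ) (hν : ν ≠ 0) :
    ∃ T : E →ₗ[ℝ] V, Function.Injective T ∧ ∀ v, (T v).2 = ν v := by
  have : FiniteDimensional ℝ E := Module.finite_of_finrank_pos (by omega)
  have h1 := Module.Dual.finrank_ker_add_one_of_ne_zero hν
  obtain ⟨g, hg⟩ := (LinearMap.ker ν).subtype.exists_leftInverse_of_injective
    (Submodule.ker_subtype _)
  let L : LinearMap.ker ν ≃ₗ[ℝ] ℂ := LinearEquiv.ofFinrankEq _ _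
    (by rw [Complex.finrank_real_complex]; omega)
  refine ⟨(L.toLinearMap.comp g).prod ν, ?_, fun v => rfl⟩
  rw [injective_iff_map_eq_zero]
  intro v hv
  have h2 : ν v = 0 := congrArg Prod.snd hv
  have h3 : L (g v) = 0 := congrArg Prod.fst hv
  have h4 : g v = ⟨v, h2⟩ := LinearMap.congr_fun hg ⟨v, h2⟩
  rw [L.map_eq_zero_iff, h4] at h3
  exact congrArg Subtype.val h3

open Classical in
theorem main3 (hE : Module.finrank ℝ E = 3) (a : Fin m → E) (b : Fin n → E) (ha : ∀ i, a i ≠ 0)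
    (hb : ∀ j, b j ≠ 0) (hia : ∀ i i', i ≠ i' → Ind (a i) (a i'))
    (hib : ∀ j j', j ≠ j' → Ind (b j) (b j'))
    (hs : ∀ e ∈ PR m, ∀ f ∈ PR n, ¬ (Sp (a e.1) (a e.2) (b f.1) ∧ Sp (a e.1) (a e.2) (b f.2))) :
    dd m * dd n ≤
      ∑ f ∈ PR n, ((PR m).filter fun e => Meet (a e.1) (a e.2) (b f.1) (b f.2)).card := by
  rcases Nat.eq_zero_or_pos m with rfl | hm
  · simp [dd]
  obtain ⟨ν, h1, h2, h3⟩ := exists_halving a b ha hb hia
  obtain ⟨T, hT, hν⟩ := exists_chart hE ν fun h => h1 ⟨0, hm⟩ (by rw [h]; rfl)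
  have hI : ∀ u u', Ind u u' → Ind (T u) (T u') := fun u u' h s t hst =>
    h s t (hT (by rw [map_smul, map_smul, hst]))
  have hS : ∀ u u' v, Sp (T u) (T u') (T v) → Sp u u' v := fun u u' v h => by
    obtain ⟨s, t, h⟩ := Submodule.mem_span_pair.1 h
    exact Submodule.mem_span_pair.2 ⟨s, t, hT (by rw [map_add, map_smul, map_smul, h])⟩
  have hne : ∀ {k} {e : Fin k × Fin k}, e ∈ PR k → e.1 ≠ e.2 := fun h => (mem_filter.1 h).2.ne
  refine (core (a := fun i => T (a i)) (b := fun j => T (b j)) (fun i => hν _ ▸ h1 i)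
    (fun j => hν _ ▸ h2 j) (fun e he => hI _ _ (hia _ _ (hne he)))
    (fun f hf => hI _ _ (hib _ _ (hne hf)))
    (fun e he f hf h => hs e he f hf ⟨hS _ _ _ h.1, hS _ _ _ h.2⟩)
    (by simp only [hν]; exact h3)).trans (sum_le_sum fun f _ => card_le_card fun e he => ?_)
  obtain ⟨he, v, hv, ⟨s, t, k1, k2⟩, s', t', k3, k4⟩ := mem_filter.1 he
  have k5 : T (s • a e.1 - t • a e.2) = v := by rw [map_sub, map_smul, map_smul, k2]
  refine mem_filter.2 ⟨he, s • a e.1 - t • a e.2, fun h => hv (by rw [← k5, h, map_zero]),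
    ⟨s, t, k1, rfl⟩, s', t', k3, hT ?_⟩
  rw [k5, map_sub, map_smul, map_smul, k4]

end Vale.Agent.P040
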